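import Vale.Agent.P254.LpSub.Pins
import Vale.Agent.P254.FewSlabs.Vaaler

/-!
P254, subspaces of `ℓ_p`: Gaussian moments of a linear form, by rotating it to a coordinate.
-/

noncomputable section

open MeasureTheory Set

namespace Vale.Agent.P254.LpSub

namespace GaussAux

lemma one_dim (p : ℝ) (hp : 0 ≤ p) :
    Integrable (fun t : ℝ => |t| ^ p * Real.exp (-t ^ 2 / 2)) ∧
      ∫ t : ℝ, |t| ^ p * Real.exp (-t ^ 2 / 2) = √(2 * Real.pi) * gm p := by
  have h := integral_rpow_mul_exp_neg_mul_rpow (p := 2) (q := p) (b := 1 / 2) two_pos (by linarith)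
    (by norm_num)
  set f : ℝ → ℝ := fun t => t ^ p * Real.exp (-(1 / 2) * t ^ (2 : ℝ)) with hf
  have e : (fun t : ℝ => |t| ^ p * Real.exp (-t ^ 2 / 2)) = fun t => f |t| := by
    funext t
    simp only [hf, Real.rpow_two, sq_abs]
    ring_nf
  have hint : Integrable fun t : ℝ => |t| ^ p * Real.exp (-(1 / 2) * t ^ 2) := by
    have h1 := integrableOn_rpow_mul_exp_neg_mul_sq (b := 1 / 2) (by norm_num) (s := p) (by linarith)
    have h2 : IntegrableOn (fun t : ℝ => |t| ^ p * Real.exp (-(1 / 2) * t ^ 2)) (Ioi 0) :=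
      h1.congr_fun (fun t (ht : 0 < t) => by simp only [abs_of_pos ht]) measurableSet_Ioi
    have h3 : IntegrableOn (fun t : ℝ => |t| ^ p * Real.exp (-(1 / 2) * t ^ 2)) (Iic 0) := by
      rw [← integrableOn_Ici_iff_integrableOn_Ioi] at h2
      have h4 := (Measure.measurePreserving_neg (volume : Measure ℝ)).integrableOn_comp_preimage
        (MeasurableEquiv.neg ℝ).measurableEmbedding (f := fun t : ℝ =>
          |t| ^ p * Real.exp (-(1 / 2) * t ^ 2)) (s := Ici 0)
      have h5 := h4.2 h2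
      simpa [Function.comp_def] using h5
    simpa [← integrableOn_univ] using h3.union h2
  refine ⟨?_, ?_⟩
  · simpa [show ∀ t : ℝ, -t ^ 2 / 2 = -(1 / 2) * t ^ 2 from fun t => by ring] using hint
  · rw [e, integral_comp_abs, hf]
    rw [h, gm, Real.sqrt_mul two_pos.le]
    have hπ : √Real.pi ≠ 0 := (Real.sqrt_pos.2 Real.pi_pos).ne'
    field_simp
    rw [show ((1 : ℝ) / 2) = 2⁻¹ by norm_num, Real.inv_rpow two_pos.le, ← Real.rpow_neg two_pos.le,
      Real.sqrt_eq_rpow, neg_neg, show (p + 1) / 2 = 1 / 2 + p / 2 by ring, Real.rpow_add two_pos]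

lemma gauss_total (n : ℕ) :
    Integrable (fun y : Fin n → ℝ => Real.exp (-(∑ j, y j ^ 2) / 2)) ∧
      ∫ y : Fin n → ℝ, Real.exp (-(∑ j, y j ^ 2) / 2) = √(2 * Real.pi) ^ n := by
  have e : ∀ y : Fin n → ℝ,
      Real.exp (-(∑ j, y j ^ 2) / 2) = ∏ j, Real.exp (-(1 / 2) * y j ^ 2) := fun y => by
    rw [← Real.exp_sum, ← Finset.mul_sum]; ring_nf
  simp only [e]
  refine ⟨?_, ?_⟩
  · rw [volume_pi]
    exact Integrable.fintype_prod fun _ => integrable_exp_neg_mul_sq (by norm_num)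
  · rw [integral_fintype_prod_volume_eq_pow (fun t : ℝ => Real.exp (-(1 / 2) * t ^ 2)),
      integral_gaussian, Fintype.card_fin, div_div_eq_mul_div, div_one, mul_comm]

end GaussAux

/-- Gaussian moments of a linear form. -/
theorem gaussMoment : GaussMoment := by
  intro n w p hp
  by_cases hw : ∀ j, w j = 0
  · simp [hw, Real.zero_rpow (show p ≠ 0 by linarith)]
  set r := √(∑ j, w j ^ 2) with hr
  have hs : 0 < ∑ j, w j ^ 2 := by
    push Not at hw
    obtain ⟨j, hj⟩ := hw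
    exact lt_of_lt_of_le (by positivity) (Finset.single_le_sum (f := fun j => w j ^ 2)
      (fun j _ => sq_nonneg _) (Finset.mem_univ j))
  have hr0 : 0 < r := Real.sqrt_pos.2 hs
  have hr2 : r ^ 2 = ∑ j, w j ^ 2 := Real.sq_sqrt hs.le
  set u : Fin n → Fin 1 → ℝ := fun i _ => w i / r with hu
  have hframe : FewSlabs.IsFrame u := fun j k => by
    rw [if_pos (Subsingleton.elim j k)]
    simp only [hu, ← sq, div_pow, ← Finset.sum_div, hr2]
    exact div_self hs.ne'
  obtain ⟨k, Φ, Ψ, hmp, hemb, hnorm, hlin, hΦ, -⟩ := FewSlabs.VaalerAux.exists_coords u hframe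
  have hΨ0 : ∀ i, Ψ 0 i = 0 := fun i => by
    have h1 := congrFun (hlin (0, 0) (0, 0) 0 0) i
    have h2 := hΦ (0, 0) i
    simp at h1 h2
    rw [Prod.mk_zero_zero, h1] at h2
    exact h2.symm
  have hdot : ∀ q : (Fin 1 → ℝ) × (Fin k → ℝ), ∑ i, w i * Φ q i = r * q.1 0 := by
    intro q
    have h1 : ∀ i, Φ (q + ((fun _ => 1), 0)) i = Φ q i + w i / r := fun i => by
      have h0 := congrFun (hlin q ((fun _ => 1), 0) 1 1) i
      simp only [one_smul, Pi.add_apply] at h0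
      rw [h0, hΦ ((fun _ => 1), 0) i]
      simp [hu, hΨ0]
    have h2 := hnorm (q + ((fun _ => 1), 0))
    simp only [h1, add_sq, Finset.sum_add_distrib, hnorm q, Fin.sum_univ_one,
      Prod.fst_add, Prod.snd_add, Pi.add_apply, Pi.zero_apply, add_zero] at h2
    have h3 : ∑ i, (w i / r) ^ 2 = 1 := by
      simp only [div_pow, ← Finset.sum_div, hr2]; exact div_self hs.ne'
    have h4 : ∑ i, 2 * Φ q i * (w i / r) = 2 / r * ∑ i, w i * Φ q i := by
      rw [Finset.mul_sum]; exact Finset.sum_congr rfl fun i _ => by ring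
    rw [h3, h4] at h2
    field_simp at h2 ⊢
    linarith
  obtain ⟨hi1, hI1⟩ := GaussAux.one_dim p (by linarith)
  obtain ⟨hiu, hIu⟩ := GaussAux.gauss_total n
  obtain ⟨hik, hIk⟩ := GaussAux.gauss_total k
  obtain ⟨hi0, hI0⟩ := GaussAux.gauss_total 1
  have hone := (volume_preserving_funUnique (Fin 1) ℝ)
  set F : (Fin n → ℝ) → ℝ := fun y => |∑ j, w j * y j| ^ p * Real.exp (-(∑ j, y j ^ 2) / 2) with hF
  have hFΦ : F ∘ Φ = fun q => (r ^ p * (|q.1 0| ^ p * Real.exp (-q.1 0 ^ 2 / 2))) *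
      Real.exp (-(∑ l, q.2 l ^ 2) / 2) := by
    funext q
    simp only [Function.comp, hF, hdot, hnorm, Fin.sum_univ_one, abs_mul, abs_of_pos hr0,
      Real.mul_rpow hr0.le (abs_nonneg _), neg_add, add_div, Real.exp_add]
    ring
  have hif : Integrable (fun y : Fin 1 → ℝ =>
      r ^ p * (|y 0| ^ p * Real.exp (-y 0 ^ 2 / 2))) :=
    ((hone.integrable_comp_emb (MeasurableEquiv.funUnique (Fin 1) ℝ).measurableEmbedding).2
      hi1).const_mul _
  have hint : Integrable F := by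
    refine (hmp.integrable_comp_emb hemb).1 ?_
    rw [hFΦ, Measure.volume_eq_prod]
    exact hif.mul_prod hik
  refine ⟨hint, ?_⟩
  have hn : √(2 * Real.pi) ^ n = √(2 * Real.pi) * √(2 * Real.pi) ^ k := by
    rw [← hIu, ← hmp.integral_comp hemb]
    simp only [hnorm, neg_add, add_div, Real.exp_add]
    rw [Measure.volume_eq_prod, integral_prod_mul (fun y : Fin 1 → ℝ =>
        Real.exp (-(∑ j, y j ^ 2) / 2)) (fun z : Fin k → ℝ => Real.exp (-(∑ l, z l ^ 2) / 2)),
      hI0, hIk, pow_one]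
  show ∫ y, F y = _
  rw [← hmp.integral_comp hemb]
  change ∫ q, (F ∘ Φ) q = _
  rw [hFΦ, Measure.volume_eq_prod, integral_prod_mul (fun y : Fin 1 → ℝ =>
      r ^ p * (|y 0| ^ p * Real.exp (-y 0 ^ 2 / 2)))
      (fun z : Fin k → ℝ => Real.exp (-(∑ l, z l ^ 2) / 2)), integral_const_mul, hIk]
  have h1 : ∫ y : Fin 1 → ℝ, |y 0| ^ p * Real.exp (-y 0 ^ 2 / 2) = √(2 * Real.pi) * gm p := by
    rw [← hI1, ← hone.integral_comp (MeasurableEquiv.funUnique (Fin 1) ℝ).measurableEmbedding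
      (fun t : ℝ => |t| ^ p * Real.exp (-t ^ 2 / 2))]
    rfl
  rw [h1, Real.sqrt_eq_rpow] at *
  have e : (2 * Real.pi) ^ ((n : ℝ) / 2) = ((2 * Real.pi) ^ ((1 : ℝ) / 2)) ^ n := by
    rw [← Real.rpow_natCast, ← Real.rpow_mul (by positivity)]; congr 1; ring
  rw [e, hn]
  ring

end Vale.Agent.P254.LpSub
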