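import Mathlib

/-!
P254, subspaces of `ℓ_p`: the statements exchanged between the blocks of the proof that unit balls
of finite dimensional subspaces of `ℓ_p`, `1 ≤ p ≤ 10`, satisfy the strong isotropic constant
inequality in high dimension.
-/

noncomputable section

open MeasureTheory Set

namespace Vale.Agent.P254.LpSub

/-- The unit ball of the norm `(∑ i, |a_i · x| ^ p) ^ (1/p)`. -/
def lpBody {n N : ℕ} (a : Fin N → Fin n → ℝ) (p : ℝ) : Set (Fin n → ℝ) :=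
  {x | ∑ i, |∑ j, a i j * x j| ^ p ≤ 1}

/-- The absolute moment of order `p` of a standard normal variable. -/
def gm (p : ℝ) : ℝ := 2 ^ (p / 2) * Real.Gamma ((p + 1) / 2) / √Real.pi

/-- The even unimodal marginals have moments of order `p ≥ 2` at least those of a uniform law. -/
def HighMoment : Prop := ∀ (n : ℕ) (K : Set (Fin n → ℝ)) (w : Fin n → ℝ) (p : ℝ), IsCompact K →
  Convex ℝ K → (∀ x ∈ K, -x ∈ K) → 0 < (volume K).toReal → 2 ≤ p →
  (3 * ((volume K).toReal⁻¹ * ∫ x in K, (∑ j, w j * x j) ^ 2)) ^ (p / 2) ≤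
    (p + 1) * ((volume K).toReal⁻¹ * ∫ x in K, |∑ j, w j * x j| ^ p)

/-- The second moment of a marginal is at most twice the square of the first absolute one. -/
def LowMoment : Prop := ∀ (n : ℕ) (K : Set (Fin n → ℝ)) (w : Fin n → ℝ), IsCompact K →
  Convex ℝ K → (∀ x ∈ K, -x ∈ K) →
  (volume K).toReal * ∫ x in K, (∑ j, w j * x j) ^ 2 ≤ 2 * (∫ x in K, |∑ j, w j * x j|) ^ 2

/-- Gaussian moments of a linear form. -/
def GaussMoment : Prop := ∀ (n : ℕ) (w : Fin n → ℝ) (p : ℝ), 1 ≤ p →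
  Integrable (fun y : Fin n → ℝ => |∑ j, w j * y j| ^ p * Real.exp (-(∑ j, y j ^ 2) / 2)) ∧
    ∫ y : Fin n → ℝ, |∑ j, w j * y j| ^ p * Real.exp (-(∑ j, y j ^ 2) / 2) =
      (2 * Real.pi) ^ ((n : ℝ) / 2) * √(∑ j, w j ^ 2) ^ p * gm p

/-- The comparison of the norm with a Gaussian gives a lower bound for the volume. -/
def VolumeLower : Prop := ∀ (n N : ℕ) (a : Fin N → Fin n → ℝ) (p M : ℝ), 0 < n → 1 ≤ p →
  Bornology.IsBounded (lpBody a p) → 0 < M → gm p * ∑ i, √(∑ j, a i j ^ 2) ^ p ≤ M →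
  (2 * Real.pi * Real.exp 1) ^ ((n : ℝ) / 2) * ((n : ℝ) / p / M) ^ ((n : ℝ) / p) *
      Real.exp (-((n : ℝ) / p)) ≤
    Real.Gamma ((n : ℝ) / p + 1) * (volume (lpBody a p)).toReal

/-- A Stirling upper bound for the Gamma function. -/
def GammaUpper : Prop := ∀ m : ℝ, 0 < m →
  Real.Gamma (m + 1) ≤ Real.exp 1 * (m + 1) * (m / Real.exp 1) ^ m

/-- The numerical bounds for the Gaussian moments. -/
def MomentNumeric : Prop :=
  (∀ p : ℝ, 1 ≤ p → p ≤ 2 → gm p ≤ 1) ∧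
    ∀ p : ℝ, 2 ≤ p → p ≤ 10 → (p + 1) * gm p ≤ (637 / 100 : ℝ) ^ (p / 2)

end Vale.Agent.P254.LpSub
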