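import Mathlib
import Vale.Agent.P254.LpSub.Pins

/-!
P254, subspaces of `ℓ_p`: a Stirling upper bound for the Gamma function and the numerical bounds
for the Gaussian moments, by log-convexity of Gamma between even integers.
-/

noncomputable section

open MeasureTheory Set

namespace Vale.Agent.P254.LpSub

/-- The Stirling upper bound of the pins. -/
theorem gammaUpper : GammaUpper := by
  intro m hm
  have hm1 : 0 < m + 1 := by linarith
  have hpt : ∀ t ∈ Ioi (0 : ℝ), Real.exp (-t) * t ^ (m + 1 - 1)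
      ≤ ((m + 1) / Real.exp 1) ^ m * Real.exp (-(1 / (m + 1)) * t) := by
    intro t ht
    have ht0 : 0 < t := ht
    have hb : t * Real.exp (-(t / (m + 1))) ≤ (m + 1) / Real.exp 1 := by
      have h := Real.add_one_le_exp (t / (m + 1) - 1)
      rw [sub_add_cancel, Real.exp_sub, div_le_div_iff₀ hm1 (Real.exp_pos _)] at h
      rw [Real.exp_neg, ← div_eq_mul_inv, div_le_div_iff₀ (Real.exp_pos _) (Real.exp_pos _)]
      linarith
    have h2 := Real.rpow_le_rpow (by positivity) hb hm.le
    rw [Real.mul_rpow ht0.le (Real.exp_pos _).le, ← Real.exp_mul] at h2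
    calc Real.exp (-t) * t ^ (m + 1 - 1)
        = t ^ m * Real.exp (-(t / (m + 1)) * m) * Real.exp (-(1 / (m + 1)) * t) := by
          rw [mul_assoc (t ^ m), ← Real.exp_add, add_sub_cancel_right, mul_comm]
          congr 2
          field_simp
          ring
      _ ≤ _ := mul_le_mul_of_nonneg_right h2 (Real.exp_pos _).le
  have hint : IntegrableOn (fun t : ℝ => Real.exp (-(1 / (m + 1)) * t)) (Ioi 0) :=
    exp_neg_integrableOn_Ioi 0 (by positivity)
  rw [Real.Gamma_eq_integral hm1]
  refine (setIntegral_mono_on (Real.GammaIntegral_convergent hm1) (hint.const_mul _)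
    measurableSet_Ioi hpt).trans (le_of_eq_of_le ?_ (?_ : ((m + 1) / Real.exp 1) ^ m * (m + 1) ≤ _))
  · rw [integral_const_mul, integral_exp_mul_Ioi (neg_lt_zero.2 (by positivity)) 0]
    simp
  · have e1 : ((m + 1) / Real.exp 1) ^ m = (1 + 1 / m) ^ m * (m / Real.exp 1) ^ m := by
      rw [← Real.mul_rpow (by positivity) (by positivity)]
      congr 1
      field_simp
    have e2 : (1 + 1 / m) ^ m ≤ Real.exp 1 := by
      refine (Real.rpow_le_rpow (by positivity) (by linarith [Real.add_one_le_exp (1 / m)] :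
        1 + 1 / m ≤ Real.exp (1 / m)) hm.le).trans (le_of_eq ?_)
      rw [← Real.exp_mul, one_div_mul_cancel hm.ne']
    rw [e1]
    calc (1 + 1 / m) ^ m * (m / Real.exp 1) ^ m * (m + 1)
        ≤ Real.exp 1 * (m / Real.exp 1) ^ m * (m + 1) :=
          mul_le_mul_of_nonneg_right (mul_le_mul_of_nonneg_right e2 (by positivity)) hm1.le
      _ = _ := by ring

theorem gm_pos {p : ℝ} (hp : 0 ≤ p) : 0 < gm p := by
  unfold gm
  have := Real.Gamma_pos_of_pos (show 0 < (p + 1) / 2 by linarith)
  positivity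

/-- Between two orders the moments stay below a geometric interpolation. -/
theorem gm_interp {a b p K c : ℝ} (ha : 0 ≤ a) (hap : a ≤ p) (hpb : p ≤ b) (hab : a < b)
    (hK : 0 < K) (hc : 0 < c) (h1 : K * gm a ≤ c ^ (a / 2)) (h2 : K * gm b ≤ c ^ (b / 2)) :
    K * gm p ≤ c ^ (p / 2) := by
  have key : ∀ x, 0 ≤ x → (K * gm x ≤ c ^ (x / 2) ↔ Real.log K + x / 2 * Real.log 2
      + Real.log (Real.Gamma ((x + 1) / 2)) - Real.log √Real.pi ≤ x / 2 * Real.log c) := by
    intro x hx
    have hG := Real.Gamma_pos_of_pos (show 0 < (x + 1) / 2 by linarith)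
    have hr : (0 : ℝ) < 2 ^ (x / 2) := by positivity
    rw [← Real.log_le_log_iff (mul_pos hK (gm_pos hx)) (by positivity),
      Real.log_mul hK.ne' (gm_pos hx).ne', gm, Real.log_div (by positivity) (by positivity),
      Real.log_mul hr.ne' hG.ne', Real.log_rpow two_pos, Real.log_rpow hc]
    constructor <;> intro h <;> linarith
  have hb : 0 ≤ b := by linarith
  rw [key a ha] at h1
  rw [key b hb] at h2
  rw [key p (by linarith)]
  set s := (p - a) / (b - a) with hs
  have hs0 : 0 ≤ s := div_nonneg (by linarith) (by linarith)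
  have hs1 : s ≤ 1 := by rw [hs, div_le_one (by linarith)]; linarith
  have hp : p = (1 - s) * a + s * b := by
    rw [hs]; field_simp [(by linarith : b - a ≠ 0)]; ring
  have hconv := Real.convexOn_log_Gamma.2 (show (a + 1) / 2 ∈ Ioi (0 : ℝ) from by
      show (0 : ℝ) < _; linarith)
    (show (b + 1) / 2 ∈ Ioi (0 : ℝ) from by show (0 : ℝ) < _; linarith)
    (show 0 ≤ 1 - s by linarith) hs0 (by ring)
  simp only [smul_eq_mul, Function.comp_apply] at hconv
  rw [show (1 - s) * ((a + 1) / 2) + s * ((b + 1) / 2) = (p + 1) / 2 by rw [hp]; ring] at hconv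
  have t1 := mul_le_mul_of_nonneg_left h1 (show 0 ≤ 1 - s by linarith)
  have t2 := mul_le_mul_of_nonneg_left h2 hs0
  have e : ∀ y : ℝ, p / 2 * y = (1 - s) * (a / 2 * y) + s * (b / 2 * y) := fun y => by
    rw [hp]; ring
  rw [e, e]
  nlinarith

theorem gm_even (k : ℕ) : gm (2 * (k + 1 : ℕ)) = (2 * k + 1 : ℝ) * gm (2 * k) := by
  unfold gm
  rw [show ((2 * ((k + 1 : ℕ) : ℝ)) + 1) / 2 = (2 * (k : ℝ) + 1) / 2 + 1 by push_cast; ring,
    Real.Gamma_add_one (by positivity),
    show (2 * ((k + 1 : ℕ) : ℝ)) / 2 = (2 * (k : ℝ)) / 2 + 1 by push_cast; ring,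
    Real.rpow_add two_pos, Real.rpow_one]
  ring

theorem gm_zero : gm 0 = 1 := by
  unfold gm
  norm_num [Real.Gamma_one_half_eq, (Real.sqrt_pos.2 Real.pi_pos).ne']

/-- The numerical bounds of the pins. -/
theorem momentNumeric : MomentNumeric := by
  have g2 : gm 2 = 1 := by simpa [gm_zero] using gm_even 0
  have g4 : gm 4 = 3 := by
    have := gm_even 1
    norm_num [g2] at this ⊢
    linarith
  have g6 : gm 6 = 15 := by
    have := gm_even 2
    norm_num [g4] at this ⊢
    linarith
  have g8 : gm 8 = 105 := by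
    have := gm_even 3
    norm_num [g6] at this ⊢
    linarith
  have g10 : gm 10 = 945 := by
    have := gm_even 4
    norm_num [g8] at this ⊢
    linarith
  constructor
  · intro p h1 h2
    have hg1 : gm 1 ≤ 1 := by
      unfold gm
      norm_num
      rw [show (2 : ℝ) ^ (1 / 2 : ℝ) = √2 from (Real.sqrt_eq_rpow 2).symm,
        div_le_one (by positivity)]
      exact Real.sqrt_le_sqrt (by linarith [Real.pi_gt_three])
    simpa using gm_interp (K := 1) (c := 1) zero_le_one h1 h2 (by norm_num) one_pos one_pos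
      (by simpa using hg1) (by simp [g2])
  · intro p h1 h2
    have hgp := gm_pos (show (0 : ℝ) ≤ p by linarith)
    have hc : (0 : ℝ) < 637 / 100 := by norm_num
    have main : ∀ a b : ℝ, ∀ i j : ℕ, a = 2 * i → b = 2 * j → a ≤ p → p ≤ b → a < b →
        (b + 1) * gm a ≤ (637 / 100 : ℝ) ^ i → (b + 1) * gm b ≤ (637 / 100 : ℝ) ^ j →
        (p + 1) * gm p ≤ (637 / 100 : ℝ) ^ (p / 2) := by
      intro a b i j ha hb hap hpb hab e1 e2
      have hi : a / 2 = (i : ℝ) := by rw [ha]; ring
      have hj : b / 2 = (j : ℝ) := by rw [hb]; ring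
      refine (mul_le_mul_of_nonneg_right (by linarith : p + 1 ≤ b + 1) hgp.le).trans ?_
      refine gm_interp (by rw [ha]; positivity) hap hpb hab (by linarith) hc ?_ ?_
      · rwa [hi, Real.rpow_natCast]
      · rwa [hj, Real.rpow_natCast]
    rcases le_total p 4 with h4 | h4
    · exact main 2 4 1 2 (by norm_num) (by norm_num) h1 h4 (by norm_num)
        (by rw [g2]; norm_num) (by rw [g4]; norm_num)
    rcases le_total p 6 with h6 | h6
    · exact main 4 6 2 3 (by norm_num) (by norm_num) h4 h6 (by norm_num)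
        (by rw [g4]; norm_num) (by rw [g6]; norm_num)
    rcases le_total p 8 with h8 | h8
    · exact main 6 8 3 4 (by norm_num) (by norm_num) h6 h8 (by norm_num)
        (by rw [g6]; norm_num) (by rw [g8]; norm_num)
    · exact main 8 10 4 5 (by norm_num) (by norm_num) h8 h2 (by norm_num)
        (by rw [g8]; norm_num) (by rw [g10]; norm_num)

end Vale.Agent.P254.LpSub
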