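import Mathlib
import Vale.Agent.P254.LpSub.Pins

/-!
P254, subspaces of `ℓ_p`: the comparison of `exp (-h)`, `h = ∑ i, |a_i · x| ^ p`, with a Gaussian
bounds the volume of the unit ball from below.
-/

noncomputable section

open MeasureTheory Set

namespace Vale.Agent.P254.LpSub

/-- Integral and integrability of the standard Gaussian kernel and of its second moment. -/
lemma gauss_mass (n : ℕ) :
    Integrable (fun y : Fin n → ℝ => Real.exp (-(∑ j, y j ^ 2) / 2)) ∧
      ∫ y : Fin n → ℝ, Real.exp (-(∑ j, y j ^ 2) / 2) = (2 * Real.pi) ^ ((n : ℝ) / 2) := by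
  have hE : (fun y : Fin n → ℝ => Real.exp (-(∑ j, y j ^ 2) / 2))
      = fun y => ∏ j, Real.exp (-(1 / 2) * y j ^ 2) := by
    funext y
    rw [← Real.exp_sum, ← Finset.mul_sum]
    congr 1; ring
  rw [hE]
  refine ⟨Integrable.fintype_prod (f := fun _ (t : ℝ) => Real.exp (-(1 / 2) * t ^ 2))
    fun _ => integrable_exp_neg_mul_sq (by norm_num), ?_⟩
  rw [integral_fintype_prod_volume_eq_pow fun t : ℝ => Real.exp (-(1 / 2) * t ^ 2),
    integral_gaussian, Fintype.card_fin, Real.sqrt_eq_rpow, ← Real.rpow_natCast,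
    ← Real.rpow_mul (by positivity)]
  congr 1 <;> ring

lemma gm_two : gm 2 = 1 := by
  have h : Real.Gamma (((2 : ℝ) + 1) / 2) = √Real.pi / 2 := by
    rw [show ((2 : ℝ) + 1) / 2 = 1 / 2 + 1 by norm_num, Real.Gamma_add_one (by norm_num),
      Real.Gamma_one_half_eq]
    ring
  rw [gm, h, div_self (two_ne_zero : (2 : ℝ) ≠ 0), Real.rpow_one]
  field_simp

theorem volumeLower (hG : GaussMoment) : VolumeLower := by
  intro n N a p M hn hp hb hM hsum
  have hp0 : 0 < p := by linarith
  set h : (Fin n → ℝ) → ℝ := fun x => ∑ i, |∑ j, a i j * x j| ^ p with hh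
  have hnn : ∀ x, 0 ≤ h x := fun x => Finset.sum_nonneg fun i _ => by positivity
  have hsmul : ∀ (r : ℝ) x, h (r • x) = |r| ^ p * h x := fun r x => by
    simp only [hh, Finset.mul_sum]
    refine Finset.sum_congr rfl fun i _ => ?_
    rw [← Real.mul_rpow (abs_nonneg _) (abs_nonneg _), ← abs_mul, Finset.mul_sum]
    simp [mul_left_comm]
  have hhc : Continuous h :=
    continuous_finsetSum _ fun i _ => Continuous.rpow_const (by fun_prop) fun x => Or.inr hp0.le
  set g : (Fin n → ℝ) → ℝ := fun x => h x ^ (1 / p) with hg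
  have hgp : ∀ x, g x ^ p = h x := fun x => by
    simp only [hg]
    rw [← Real.rpow_mul (hnn x), one_div_mul_cancel hp0.ne', Real.rpow_one]
  have h1 : g 0 = 0 := by
    simp [hg, hh, Real.zero_rpow hp0.ne', Real.zero_rpow (inv_ne_zero hp0.ne')]
  have h2 : ∀ x, g (-x) = g x := fun x => by
    simp only [hg]; rw [← neg_one_smul ℝ x, hsmul]; simp
  have h3 : ∀ x y, g (x + y) ≤ g x + g y := fun x y => by
    have := Real.Lp_add_le Finset.univ (fun i => ∑ j, a i j * x j) (fun i => ∑ j, a i j * y j) hp
    simpa [hg, hh, mul_add, Finset.sum_add_distrib] using this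
  have h5 : ∀ (r : ℝ) x, g (r • x) ≤ |r| * g x := fun r x => le_of_eq <| by
    simp only [hg]
    rw [hsmul, Real.mul_rpow (by positivity) (hnn x), ← Real.rpow_mul (abs_nonneg r),
      mul_one_div_cancel hp0.ne', Real.rpow_one]
  have h4 : ∀ {x}, g x = 0 → x = 0 := fun {x} hx => by
    by_contra hne
    obtain ⟨R, hR⟩ := hb.exists_norm_le
    have hh0 : h x = 0 := by rw [← hgp, hx, Real.zero_rpow hp0.ne']
    have hmem : ((|R| + 1) / ‖x‖) • x ∈ lpBody a p := by
      show h _ ≤ 1
      rw [hsmul, hh0]; norm_num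
    have := hR _ hmem
    rw [norm_smul, Real.norm_eq_abs, abs_of_nonneg (by positivity),
      div_mul_cancel₀ _ (norm_ne_zero_iff.2 hne)] at this
    linarith [le_abs_self R]
  set G := Real.Gamma ((n : ℝ) / p + 1) with hGdef
  have hG0 : 0 < G := Real.Gamma_pos_of_pos (by positivity)
  have hform : volume {x | g x < 1} = .ofReal ((∫ x, Real.exp (-h x)) / G) := by
    rw [measure_lt_one_eq_integral_div_gamma volume h1 h2 h3 h4 h5 hp0, hGdef]
    simp only [hgp, Module.finrank_fin_fun]
  have hpos : 0 < (∫ x, Real.exp (-h x)) / G := by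
    have : 0 < volume {x | g x < 1} :=
      (isOpen_lt (hhc.rpow_const fun x => Or.inr (by positivity)) continuous_const).measure_pos _
        ⟨0, show g 0 < 1 by rw [h1]; norm_num⟩
    rwa [hform, ENNReal.ofReal_pos] at this
  have hint : Integrable fun x => Real.exp (-h x) := by
    by_contra hc
    rw [integral_undef hc, zero_div] at hpos
    exact lt_irrefl _ hpos
  have hvol : ∫ x, Real.exp (-h x) ≤ G * (volume (lpBody a p)).toReal := by
    have hsub : {x | g x < 1} ⊆ lpBody a p := fun x hx => by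
      show h x ≤ 1
      rw [← hgp]
      exact Real.rpow_le_one (Real.rpow_nonneg (hnn x) _) (le_of_lt hx) hp0.le
    have := ENNReal.toReal_mono hb.measure_lt_top.ne (measure_mono (μ := volume) hsub)
    rw [hform, ENNReal.toReal_ofReal hpos.le, div_le_iff₀ hG0] at this
    linarith
  -- rescaling
  set k := (n : ℝ) / p / M with hk
  have hk0 : 0 < k := by positivity
  set l := k ^ (1 / p) with hl
  have hl0 : 0 < l := by positivity
  have hlp : l ^ p = k := by rw [hl, ← Real.rpow_mul hk0.le, one_div_mul_cancel hp0.ne', Real.rpow_one]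
  have hln : l ^ n = k ^ ((n : ℝ) / p) := by
    rw [hl, ← Real.rpow_natCast, ← Real.rpow_mul hk0.le]
    congr 1; ring
  have hscale : ∀ y, Real.exp (-(k * h y)) = Real.exp (-h (l • y)) := fun y => by
    rw [hsmul, abs_of_pos hl0, hlp]
  have hintk : Integrable fun y => Real.exp (-(k * h y)) := by
    simp only [hscale]; exact hint.comp_smul hl0.ne'
  have hIk : ∫ y, Real.exp (-(k * h y)) = (l ^ n)⁻¹ * ∫ x, Real.exp (-h x) := by
    simp only [hscale]
    rw [Measure.integral_comp_smul volume (fun x => Real.exp (-h x)) l, Module.finrank_fin_fun,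
      abs_of_pos (by positivity), smul_eq_mul]
  -- the tangent bound against the Gaussian
  obtain ⟨hEi, hEv⟩ := gauss_mass n
  set E : (Fin n → ℝ) → ℝ := fun y => Real.exp (-(∑ j, y j ^ 2) / 2) with hE
  set T := (2 * Real.pi) ^ ((n : ℝ) / 2) with hT
  have hq : ∀ j, Integrable (fun y : Fin n → ℝ => y j ^ 2 * E y) ∧ ∫ y, y j ^ 2 * E y = T := by
    intro j
    have := hG n (Pi.single j 1) 2 (by norm_num)
    simpa [Pi.single_apply, gm_two, hE, hT] using this
  have hqi : Integrable fun y : Fin n → ℝ => (∑ j, y j ^ 2) * E y := by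
    simp only [Finset.sum_mul]; exact integrable_finsetSum _ fun j _ => (hq j).1
  have hqv : ∫ y : Fin n → ℝ, (∑ j, y j ^ 2) * E y = n * T := by
    simp only [Finset.sum_mul]
    rw [integral_finsetSum _ fun j _ => (hq j).1]
    simp [fun j => (hq j).2]
  have hhi : Integrable fun y => h y * E y := by
    simp only [hh, Finset.sum_mul]; exact integrable_finsetSum _ fun i _ => (hG n (a i) p hp).1
  have hhv : ∫ y, h y * E y ≤ T * M := by
    simp only [hh, Finset.sum_mul]
    rw [integral_finsetSum _ fun i _ => (hG n (a i) p hp).1,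
      Finset.sum_congr rfl fun i _ => (hG n (a i) p hp).2]
    refine le_trans (le_of_eq ?_) (mul_le_mul_of_nonneg_left hsum (by positivity))
    simp only [hT, Finset.mul_sum]
    exact Finset.sum_congr rfl fun i _ => by ring
  set c := (n : ℝ) / 2 - n / p with hc
  have hpt : ∀ y, Real.exp c * ((1 - c) * E y + (1 / 2) * ((∑ j, y j ^ 2) * E y) - k * (h y * E y))
      ≤ Real.exp (-(k * h y)) := fun y => by
    set q := ∑ j, y j ^ 2
    have h0 := mul_le_mul_of_nonneg_left (Real.add_one_le_exp (-(k * h y) + q / 2 - c))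
      (mul_pos (Real.exp_pos c) (Real.exp_pos (-q / 2))).le
    rw [← Real.exp_add, ← Real.exp_add,
      show c + -q / 2 + (-(k * h y) + q / 2 - c) = -(k * h y) by ring, Real.exp_add] at h0
    refine le_trans (le_of_eq ?_) h0
    simp only [hE]; ring
  have hi1 : Integrable fun y => (1 - c) * E y + (1 / 2) * ((∑ j, y j ^ 2) * E y) :=
    (hEi.const_mul _).add (hqi.const_mul _)
  have hmain := integral_mono ((hi1.sub (hhi.const_mul k)).const_mul (Real.exp c)) hintk hpt
  simp only [Pi.sub_apply] at hmain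
  rw [integral_const_mul, integral_sub hi1 (hhi.const_mul k),
    integral_add (hEi.const_mul _) (hqi.const_mul _), integral_const_mul, integral_const_mul,
    integral_const_mul, hqv, hEv, hIk] at hmain
  have hkM : k * (T * M) = n / p * T := by rw [hk]; field_simp
  have hlow : Real.exp c * T ≤ (l ^ n)⁻¹ * ∫ x, Real.exp (-h x) := by
    refine le_trans (mul_le_mul_of_nonneg_left ?_ (Real.exp_pos c).le) hmain
    have := mul_le_mul_of_nonneg_left hhv hk0.le
    rw [hkM] at this
    rw [hc]
    linarith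
  rw [← div_eq_inv_mul, le_div_iff₀ (by positivity)] at hlow
  refine le_trans (le_of_eq ?_) (hlow.trans hvol)
  rw [hln, hT, hc, Real.mul_rpow (by positivity) (Real.exp_pos 1).le, Real.exp_one_rpow,
    Real.exp_sub, Real.exp_neg]
  ring

end Vale.Agent.P254.LpSub
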