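import Vale.Agent.P254.LpSub.Main

/-!
P254, subspaces of `L_p`: passage from simple functions to all of `L_p`.
-/

noncomputable section

open MeasureTheory Set Filter Topology
open scoped ENNReal

namespace Vale.Agent.P254.LpSub

namespace GeneralAux

variable {n : ℕ} {Ω : Type} [MeasurableSpace Ω] {μ : Measure Ω}

/-- The norm of `∑ j, x j • f j` in `L_p`. -/
def nrm (μ : Measure Ω) (f : Fin n → Ω → ℝ) (q : ℝ≥0∞) (x : Fin n → ℝ) : ℝ :=
  (eLpNorm (fun ω => ∑ j, x j * f j ω) q μ).toReal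

lemma memLp_comb {f : Fin n → Ω → ℝ} {q : ℝ≥0∞} (hf : ∀ j, MemLp (f j) q μ) (x : Fin n → ℝ) :
    MemLp (fun ω => ∑ j, x j * f j ω) q μ :=
  memLp_finsetSum _ fun j _ => (hf j).const_mul (x j)

lemma nrm_rpow {f : Fin n → Ω → ℝ} {p : ℝ} (hp : 1 ≤ p)
    (hf : ∀ j, MemLp (f j) (ENNReal.ofReal p) μ) (x : Fin n → ℝ) :
    nrm μ f (ENNReal.ofReal p) x ^ p = ∫ ω, |∑ j, x j * f j ω| ^ p ∂μ := by
  have hp0 : 0 < p := by linarith
  have hI : 0 ≤ ∫ ω, |∑ j, x j * f j ω| ^ p ∂μ :=
    integral_nonneg fun ω => Real.rpow_nonneg (abs_nonneg _) _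
  rw [nrm, (memLp_comb hf x).eLpNorm_eq_integral_rpow_norm (ENNReal.ofReal_pos.2 hp0).ne'
    ENNReal.ofReal_ne_top, ENNReal.toReal_ofReal hp0.le]
  simp only [Real.norm_eq_abs]
  rw [ENNReal.toReal_ofReal (Real.rpow_nonneg hI _), Real.rpow_inv_rpow hI hp0.ne']

lemma nrm_smul {f : Fin n → Ω → ℝ} {q : ℝ≥0∞} (c : ℝ) (x : Fin n → ℝ) :
    nrm μ f q (c • x) = |c| * nrm μ f q x := by
  have e : (fun ω => ∑ j, (c • x) j * f j ω) = c • fun ω => ∑ j, x j * f j ω := by
    funext ω; simp [Finset.mul_sum, mul_assoc]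
  rw [nrm, nrm, e, eLpNorm_const_smul, ENNReal.toReal_mul, Real.enorm_eq_ofReal_abs,
    ENNReal.toReal_ofReal (abs_nonneg c)]

lemma nrm_sub_le {f g : Fin n → Ω → ℝ} {q : ℝ≥0∞} (hq : 1 ≤ q) (hf : ∀ j, MemLp (f j) q μ)
    (hg : ∀ j, MemLp (g j) q μ) {ε : ℝ} (hε : 0 ≤ ε)
    (hfg : ∀ j, eLpNorm (f j - g j) q μ ≤ ENNReal.ofReal ε) (x : Fin n → ℝ) :
    nrm μ f q x ≤ nrm μ g q x + (∑ j, |x j|) * ε := by
  have e : (fun ω => ∑ j, x j * f j ω)
      = (fun ω => ∑ j, x j * g j ω) + ∑ j, x j • (f j - g j) := by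
    funext ω; simp [Finset.sum_apply, mul_sub]
  have h1 : eLpNorm (fun ω => ∑ j, x j * f j ω) q μ
      ≤ eLpNorm (fun ω => ∑ j, x j * g j ω) q μ + ENNReal.ofReal ((∑ j, |x j|) * ε) := by
    rw [e]
    refine (eLpNorm_add_le (memLp_comb hg x).aestronglyMeasurable
      (Finset.aestronglyMeasurable_sum _ fun j _ =>
        ((hf j).aestronglyMeasurable.sub (hg j).aestronglyMeasurable).const_smul (x j)) hq).trans
      (add_le_add le_rfl ?_)
    refine (eLpNorm_sum_le (fun j _ =>
      ((hf j).aestronglyMeasurable.sub (hg j).aestronglyMeasurable).const_smul (x j)) hq).trans ?_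
    rw [Finset.sum_mul, ENNReal.ofReal_sum_of_nonneg fun j _ => by positivity]
    refine Finset.sum_le_sum fun j _ => ?_
    rw [eLpNorm_const_smul, ENNReal.ofReal_mul (abs_nonneg _), Real.enorm_eq_ofReal_abs]
    exact mul_le_mul_right (hfg j) _
  have := ENNReal.toReal_mono (ENNReal.add_ne_top.2 ⟨(memLp_comb hg x).eLpNorm_ne_top,
    ENNReal.ofReal_ne_top⟩) h1
  rwa [ENNReal.toReal_add (memLp_comb hg x).eLpNorm_ne_top ENNReal.ofReal_ne_top,
    ENNReal.toReal_ofReal (by positivity)] at this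

/-- Simple functions give finitely many slabs. -/
lemma simple_body {g : Fin n → SimpleFunc Ω ℝ} {p : ℝ} (hp : 1 ≤ p)
    (hg : ∀ j, MemLp (g j) (ENNReal.ofReal p) μ) :
    ∃ (N : ℕ) (a : Fin N → Fin n → ℝ),
      lpBody a p = {x | nrm μ (fun j => ⇑(g j)) (ENNReal.ofReal p) x ≤ 1} := by
  classical
  have hp0 : 0 < p := by linarith
  set G : Ω → (Fin n → ℝ) := fun ω j => g j ω with hG
  have hfin : (range G).Finite :=
    (Finite.pi fun j => (g j).finite_range).subset (by rintro _ ⟨ω, rfl⟩ j _; exact ⟨ω, rfl⟩)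
  have hmeas : Measurable G := measurable_pi_iff.2 fun j => (g j).measurable
  set F : SimpleFunc Ω (Fin n → ℝ) := ⟨G, fun v => hmeas (measurableSet_singleton v), hfin⟩
  set e := F.range.equivFin.symm
  refine ⟨F.range.card, fun i j => μ.real (⇑F ⁻¹' {(e i : Fin n → ℝ)}) ^ (1 / p) *
    (e i : Fin n → ℝ) j, ?_⟩
  ext x
  set φ : (Fin n → ℝ) → ℝ := fun v => |∑ j, x j * v j| ^ p with hφ
  have hint : Integrable (F.map φ) μ := by
    have := (memLp_comb hg x).integrable_norm_rpow (ENNReal.ofReal_pos.2 hp0).ne'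
      ENNReal.ofReal_ne_top
    simp only [ENNReal.toReal_ofReal hp0.le, Real.norm_eq_abs] at this
    exact this
  have hsum : ∫ ω, φ (F ω) ∂μ = ∑ v ∈ F.range, μ.real (⇑F ⁻¹' {v}) * φ v := by
    have h1 : ∫ ω, F.map φ ω ∂μ = _ := SimpleFunc.integral_eq_sum (F.map φ) hint
    rw [show (fun ω => φ (F ω)) = ⇑(F.map φ) from rfl, h1, SimpleFunc.range_map]
    rw [← Finset.sum_fiberwise_of_maps_to (s := F.range) (g := φ)
      (fun v hv => Finset.mem_image_of_mem φ hv)]
    refine Finset.sum_congr rfl fun y hy => ?_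
    rw [smul_eq_mul, SimpleFunc.map_preimage_singleton]
    by_cases hy0 : y = 0
    · rw [hy0, mul_zero]
      exact (Finset.sum_eq_zero fun v hv => by
        rw [(Finset.mem_filter.1 hv).2, mul_zero]).symm
    · have hfinm : μ (⇑(F.map φ) ⁻¹' {y}) ≠ ∞ :=
        ((SimpleFunc.integrable_iff).1 hint y hy0).ne
      rw [SimpleFunc.map_preimage_singleton] at hfinm
      rw [← sum_measureReal_preimage_singleton _ (fun v _ => F.measurableSet_fiber v)
        (fun v hv => ne_top_of_le_ne_top hfinm (measure_mono fun ω hω => by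
          simp only [mem_preimage, Finset.coe_filter, mem_singleton_iff, mem_ofPred_eq] at hω ⊢
          exact hω ▸ Finset.mem_filter.1 hv)), Finset.sum_mul]
      exact Finset.sum_congr rfl fun v hv => by rw [(Finset.mem_filter.1 hv).2]
  have hbody : ∑ i, |∑ j, (μ.real (⇑F ⁻¹' {(e i : Fin n → ℝ)}) ^ (1 / p) *
      (e i : Fin n → ℝ) j) * x j| ^ p = ∫ ω, φ (F ω) ∂μ := by
    rw [hsum, ← Finset.sum_coe_sort F.range, ← e.sum_comp]
    refine Finset.sum_congr rfl fun i _ => ?_
    have h0 : 0 ≤ μ.real (⇑F ⁻¹' {(e i : Fin n → ℝ)}) ^ (1 / p) :=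
      Real.rpow_nonneg measureReal_nonneg _
    rw [show ∑ j, (μ.real (⇑F ⁻¹' {(e i : Fin n → ℝ)}) ^ (1 / p) * (e i : Fin n → ℝ) j) * x j
        = μ.real (⇑F ⁻¹' {(e i : Fin n → ℝ)}) ^ (1 / p) * ∑ j, x j * (e i : Fin n → ℝ) j by
      rw [Finset.mul_sum]; exact Finset.sum_congr rfl fun j _ => by ring,
      abs_mul, abs_of_nonneg h0, Real.mul_rpow h0 (abs_nonneg _), one_div,
      Real.rpow_inv_rpow measureReal_nonneg hp0.ne']
  show (_ ≤ (1 : ℝ)) ↔ _ ≤ (1 : ℝ)
  rw [hbody, show ∫ ω, φ (F ω) ∂μ = ∫ ω, |∑ j, x j * g j ω| ^ p ∂μ from rfl, ← nrm_rpow hp hg x]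
  exact ⟨fun h => by
    by_contra hc
    exact absurd h (not_le.2 (Real.one_lt_rpow (not_le.1 hc) hp0)),
    fun h => Real.rpow_le_one ENNReal.toReal_nonneg h hp0.le⟩

end GeneralAux

open GeneralAux in
/-- The theorem for all subspaces of `L_p`. -/
theorem main_general (hH : HighMoment) (hL : LowMoment) (hV : VolumeLower) (hΓ : GammaUpper)
    (hN : MomentNumeric) {n : ℕ} (hn : 200 ≤ n) {Ω : Type} [MeasurableSpace Ω] (μ : Measure Ω)
    (f : Fin n → Ω → ℝ) {p : ℝ} (hp : 1 ≤ p) (hp' : p ≤ 10)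
    (hf : ∀ j, MemLp (f j) (ENNReal.ofReal p) μ)
    (hb : Bornology.IsBounded {x : Fin n → ℝ | ∫ ω, |∑ j, x j * f j ω| ^ p ∂μ ≤ 1}) :
    isoConst {x : Fin n → ℝ | ∫ ω, |∑ j, x j * f j ω| ^ p ∂μ ≤ 1} ≤ Real.sqrt (2 / 15) ∧
      ∀ B : (Fin n → ℝ) ≃ᵃ[ℝ] (Fin n → ℝ),
        isoConst {x : Fin n → ℝ | ∫ ω, |∑ j, x j * f j ω| ^ p ∂μ ≤ 1}
          < isoConst (B '' stdSimplexBody n) := by
  classical
  have hp0 : 0 < p := by linarith
  have hn0 : (0 : ℝ) < n := by exact_mod_cast (show 0 < n by omega)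
  set q := ENNReal.ofReal p with hq
  have hq1 : 1 ≤ q := by rw [hq]; exact ENNReal.one_le_ofReal.2 hp
  set P := nrm μ f q with hP
  have hP0 : ∀ x, 0 ≤ P x := fun x => ENNReal.toReal_nonneg
  set K := {x : Fin n → ℝ | ∫ ω, |∑ j, x j * f j ω| ^ p ∂μ ≤ 1} with hK
  have hKP : K = {x | P x ≤ 1} := by
    ext x
    show _ ≤ (1 : ℝ) ↔ _
    rw [← nrm_rpow hp hf x]
    exact ⟨fun h => by
      by_contra hc
      exact absurd h (not_le.2 (Real.one_lt_rpow (not_le.1 hc) hp0)),
      fun h => Real.rpow_le_one (hP0 x) h hp0.le⟩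
  obtain ⟨R, hR⟩ := hb.exists_norm_le
  set R' := |R| + 1 with hR'
  have hlow : ∀ x, ‖x‖ ≤ R' * P x := fun x => by
    by_contra hc
    push Not at hc
    have hx : 0 < ‖x‖ := lt_of_le_of_lt (mul_nonneg (by positivity) (hP0 x)) hc
    have hmem : (R' / ‖x‖) • x ∈ K := by
      rw [hKP]
      show P _ ≤ 1
      rw [hP, nrm_smul, abs_of_pos (div_pos (by positivity) hx), ← hP, div_mul_eq_mul_div,
        div_le_one hx]
      exact hc.le
    have := hR _ hmem
    rw [norm_smul, Real.norm_of_nonneg (by positivity), div_mul_cancel₀ _ hx.ne'] at this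
    linarith [le_abs_self R]
  -- simple approximations
  have happ : ∀ m : ℕ, ∃ (N : ℕ) (a : Fin N → Fin n → ℝ),
      (∀ x, P x * (1 + 1 / ((m : ℝ) + 2)) ≤ 1 → x ∈ lpBody a p) ∧
      (∀ x ∈ lpBody a p, P x * (1 - 1 / ((m : ℝ) + 2)) ≤ 1) := by
    intro m
    set d : ℝ := 1 / ((m : ℝ) + 2) with hd
    have hd0 : 0 < d := by positivity
    set ε : ℝ := d / (n * R') with hε
    have hε0 : 0 < ε := by positivity
    choose g hg hgm using fun j => (hf j).exists_simpleFunc_eLpNorm_sub_lt ENNReal.ofReal_ne_top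
      (ε := ENNReal.ofReal ε) (ENNReal.ofReal_pos.2 hε0).ne'
    obtain ⟨N, a, ha⟩ := simple_body hp hgm
    refine ⟨N, a, ?_, ?_⟩
    all_goals
      intro x hx
      have hs : (∑ j, |x j|) * ε ≤ d * P x := by
        have h1 : ∑ j, |x j| ≤ n * (R' * P x) := by
          refine (Finset.sum_le_sum (g := fun _ => R' * P x) fun j _ => ?_).trans (by simp)
          exact ((Real.norm_eq_abs (x j)).symm.le.trans (norm_le_pi_norm x j)).trans (hlow x)
        calc (∑ j, |x j|) * ε ≤ n * (R' * P x) * ε := mul_le_mul_of_nonneg_right h1 hε0.le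
          _ = d * P x := by
            rw [hε]
            have : R' ≠ 0 := by positivity
            field_simp
    · rw [ha]
      show nrm μ (fun j => ⇑(g j)) q x ≤ 1
      have := nrm_sub_le hq1 hgm hf hε0.le (fun j => by
        rw [eLpNorm_sub_comm]; exact (hg j).le) x
      rw [← hP] at this
      linarith
    · rw [ha] at hx
      have := nrm_sub_le hq1 hf hgm hε0.le (fun j => (hg j).le) x
      rw [← hP] at this
      have hx' : nrm μ (fun j => ⇑(g j)) q x ≤ 1 := hx
      linarith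
  choose N a hin hout using happ
  have hdm : ∀ m : ℕ, (1 : ℝ) / ((m : ℝ) + 2) ≤ 1 / 2 := fun m => by gcongr; simp
  set box : Set (Fin n → ℝ) := Metric.closedBall 0 (R' * 2) with hbox
  have hsub : ∀ m, lpBody (a m) p ⊆ box := fun m x hx => by
    have h1 := hout m x hx
    have h2 : P x ≤ 2 := by nlinarith [hdm m, hP0 x]
    rw [hbox, mem_closedBall_zero_iff]
    exact (hlow x).trans (mul_le_mul_of_nonneg_left h2 (by positivity))
  have hb' : ∀ m, Bornology.IsBounded (lpBody (a m) p) := fun m =>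
    Metric.isBounded_closedBall.subset (hsub m)
  have hPc : Continuous P := by
    refine Metric.continuous_iff.2 fun x ε hε => ?_
    set C := ∑ j, (eLpNorm (f j) q μ).toReal with hC
    have hC0 : 0 ≤ C := Finset.sum_nonneg fun j _ => ENNReal.toReal_nonneg
    have hlip : ∀ y, P y ≤ C * ‖y‖ := fun y => by
      have h1 : eLpNorm (fun ω => ∑ j, y j * f j ω) q μ ≤ ∑ j, eLpNorm (y j • f j) q μ := by
        rw [show (fun ω => ∑ j, y j * f j ω) = ∑ j, y j • f j by
          funext ω; simp [Finset.sum_apply]]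
        exact eLpNorm_sum_le (fun j _ => (hf j).aestronglyMeasurable.const_smul _) hq1
      have h2 := ENNReal.toReal_mono (ENNReal.sum_ne_top.2 fun j _ =>
        ((hf j).const_smul (y j)).eLpNorm_ne_top) h1
      rw [ENNReal.toReal_sum fun j _ => ((hf j).const_smul (y j)).eLpNorm_ne_top] at h2
      refine h2.trans ?_
      rw [hC, Finset.sum_mul]
      refine Finset.sum_le_sum fun j _ => ?_
      rw [eLpNorm_const_smul, ENNReal.toReal_mul, Real.enorm_eq_ofReal_abs,
        ENNReal.toReal_ofReal (abs_nonneg _), mul_comm]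
      exact mul_le_mul_of_nonneg_left
        ((Real.norm_eq_abs (y j)).symm.le.trans (norm_le_pi_norm y j)) ENNReal.toReal_nonneg
    have htri : ∀ y z, P (y + z) ≤ P y + P z := fun y z => by
      have e : (fun ω => ∑ j, (y + z) j * f j ω)
          = (fun ω => ∑ j, y j * f j ω) + fun ω => ∑ j, z j * f j ω := by
        funext ω; simp [add_mul, Finset.sum_add_distrib]
      have := ENNReal.toReal_mono (ENNReal.add_ne_top.2 ⟨(memLp_comb hf y).eLpNorm_ne_top,
        (memLp_comb hf z).eLpNorm_ne_top⟩) (eLpNorm_add_le (memLp_comb hf y).aestronglyMeasurable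
          (memLp_comb hf z).aestronglyMeasurable hq1)
      rw [ENNReal.toReal_add (memLp_comb hf y).eLpNorm_ne_top (memLp_comb hf z).eLpNorm_ne_top,
        ← e] at this
      exact this
    refine ⟨ε / (C + 1), by positivity, fun y hy => ?_⟩
    rw [dist_eq_norm] at hy
    rw [Real.dist_eq, abs_sub_lt_iff]
    have h1 := htri x (y - x)
    have h2 := htri y (x - y)
    rw [add_sub_cancel] at h1 h2
    have hlt : C * ‖y - x‖ < ε := by
      rw [lt_div_iff₀ (by positivity)] at hy
      nlinarith [norm_nonneg (y - x)]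
    have h3 := hlip (x - y)
    rw [norm_sub_rev] at h3
    constructor <;> linarith [hlip (y - x)]
  have hKc : IsCompact K := Metric.isCompact_of_isClosed_isBounded
    (hKP ▸ isClosed_le hPc continuous_const) hb
  have hP00 : P 0 = 0 := by simpa [hP] using nrm_smul (μ := μ) (f := f) (q := q) 0 0
  have hsphere : volume {x | P x = 1} = 0 := by
    have hneg : ∀ x, P (-x) = P x := fun x => by
      rw [hP, ← neg_one_smul ℝ x, nrm_smul]; simp
    have htri : ∀ x y, P (x + y) ≤ P x + P y := fun y z => by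
      have e : (fun ω => ∑ j, (y + z) j * f j ω)
          = (fun ω => ∑ j, y j * f j ω) + fun ω => ∑ j, z j * f j ω := by
        funext ω; simp [add_mul, Finset.sum_add_distrib]
      have := ENNReal.toReal_mono (ENNReal.add_ne_top.2 ⟨(memLp_comb hf y).eLpNorm_ne_top,
        (memLp_comb hf z).eLpNorm_ne_top⟩) (eLpNorm_add_le (memLp_comb hf y).aestronglyMeasurable
          (memLp_comb hf z).aestronglyMeasurable hq1)
      rw [ENNReal.toReal_add (memLp_comb hf y).eLpNorm_ne_top (memLp_comb hf z).eLpNorm_ne_top,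
        ← e] at this
      exact this
    have hdef : ∀ {x}, P x = 0 → x = 0 := fun {x} hx => norm_le_zero_iff.1 (by
      simpa [hx] using hlow x)
    have : Nonempty (Fin n) := ⟨⟨0, by omega⟩⟩
    have heq := measure_le_eq_lt (volume : Measure (Fin n → ℝ)) hP00 hneg htri hdef
      (fun r x => le_of_eq (by rw [hP, nrm_smul])) 1
    have hfin : volume {x | P x < 1} ≠ ∞ := ne_top_of_le_ne_top hKc.measure_lt_top.ne
      (measure_mono fun x (hx : P x < 1) => hKP ▸ (show P x ≤ 1 from hx.le))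
    have hd := measure_sdiff (μ := volume) (show {x | P x < 1} ⊆ {x | P x ≤ 1} from
      fun x (hx : P x < 1) => hx.le) (isOpen_lt hPc continuous_const).measurableSet.nullMeasurableSet hfin
    rw [heq, tsub_self] at hd
    refine measure_mono_null (fun x (hx : P x = 1) => ?_) hd
    exact ⟨hx.le, fun h : P x < 1 => absurd hx h.ne⟩
  have hlim : ∀ F : (Fin n → ℝ) → ℝ, Continuous F →
      Tendsto (fun m => ∫ x in lpBody (a m) p, F x) atTop (𝓝 (∫ x in K, F x)) := by
    intro F hF
    have hmK : MeasurableSet K := hKc.measurableSet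
    simp only [← integral_indicator (lpBody_isClosed (a _) hp0.le).measurableSet,
      ← integral_indicator hmK]
    refine tendsto_integral_of_dominated_convergence (box.indicator fun x => ‖F x‖)
      (fun m => (hF.measurable.indicator (lpBody_isClosed _ hp0.le).measurableSet).aestronglyMeasurable)
      ((hF.norm.continuousOn.integrableOn_compact (isCompact_closedBall _ _)).integrable_indicator
        measurableSet_closedBall) (fun m => Eventually.of_forall fun x => ?_) ?_
    · rw [norm_indicator_eq_indicator_norm]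
      exact indicator_le_indicator_of_subset (hsub m) (fun _ => norm_nonneg _) x
    · filter_upwards [measure_eq_zero_iff_ae_notMem.1 hsphere] with x hx
      have ht : Tendsto (fun m : ℕ => (1 : ℝ) / ((m : ℝ) + 2)) atTop (𝓝 0) := by
        simp only [one_div]
        exact tendsto_inv_atTop_zero.comp (tendsto_atTop_add_const_right _ _ tendsto_natCast_atTop_atTop)
      rcases lt_or_gt_of_ne hx with h | h
      · have hev : ∀ᶠ m : ℕ in atTop, P x * (1 + 1 / ((m : ℝ) + 2)) ≤ 1 := by
          refine Tendsto.eventually_le_const h ?_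
          simpa using (ht.const_add 1).const_mul (P x)
        refine tendsto_const_nhds.congr' ?_
        filter_upwards [hev] with m hm
        rw [indicator_of_mem (hin m x hm), indicator_of_mem (hKP ▸ (show P x ≤ 1 from h.le))]
      · have hev : ∀ᶠ m : ℕ in atTop, 1 < P x * (1 - 1 / ((m : ℝ) + 2)) := by
          refine Tendsto.eventually_const_lt h ?_
          simpa using (ht.const_sub 1).const_mul (P x)
        refine tendsto_const_nhds.congr' ?_
        filter_upwards [hev] with m hm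
        rw [indicator_of_notMem (fun hc => absurd (hout m x hc) (not_le.2 hm)),
          indicator_of_notMem (fun hc => absurd (show P x ≤ 1 by rw [hKP] at hc; exact hc) (not_le.2 h))]
  have hVpos : 0 < (volume K).toReal := by
    refine ENNReal.toReal_pos (ne_of_gt ?_) hKc.measure_lt_top.ne
    exact ((isOpen_lt hPc continuous_const).measure_pos volume
      ⟨0, show P 0 < 1 by rw [hP00]; norm_num⟩).trans_le
      (measure_mono fun x (hx : P x < 1) => hKP ▸ (show P x ≤ 1 from hx.le))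
  have hsymK : ∀ x ∈ K, -x ∈ K := fun x hx => by
    rw [hKP] at hx ⊢
    show P (-x) ≤ 1
    rw [hP, ← neg_one_smul ℝ x, nrm_smul]
    simpa using hx
  have hVol : Tendsto (fun m => (volume (lpBody (a m) p)).toReal) atTop (𝓝 (volume K).toReal) := by
    have := hlim (fun _ => 1) continuous_const
    simpa [Measure.real] using this
  have hcov : Tendsto (fun m => (covMatrix (lpBody (a m) p)).det) atTop (𝓝 (covMatrix K).det) := by
    refine (continuous_id.matrix_det.tendsto _).comp (tendsto_pi_nhds.2 fun i => tendsto_pi_nhds.2 fun k => ?_)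
    have h1 := (hVol.inv₀ hVpos.ne').mul (hlim (fun x => x i * x k) (by fun_prop))
    simpa [covMatrix, FewSlabs.centroid_eq_zero (lpBody_symm (a _) p),
      FewSlabs.centroid_eq_zero hsymK] using h1
  have hiso : Tendsto (fun m => isoConst (lpBody (a m) p)) atTop (𝓝 (isoConst K)) :=
    (hcov.div (hVol.pow 2) (by positivity)).rpow_const (Or.inr (by positivity))
  have hle : isoConst K ≤ Real.sqrt (2 / 15) := le_of_tendsto hiso (Eventually.of_forall fun m =>
    (main_of_blocks hH hL hV hΓ hN hn (a m) hp hp' (hb' m)).1)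
  refine ⟨hle, fun B => hle.trans_lt ?_⟩
  have hS : IsCompact (stdSimplexBody n) := by
    rw [stdSimplexBody_eq]; exact solidSimplex_compact n 1
  have hSV : 0 < (volume (stdSimplexBody n)).toReal := by
    rw [(covMatrix_stdSimplexBody n).2]; positivity
  have hcrit := FewSlabs.crit_of_few (x := 8 / 5 * n) (by positivity) (show 2 ≤ n by omega)
    (Or.inr (Or.inr ⟨by omega, by linarith⟩))
  rw [show (8 : ℝ) / 5 * n / (12 * n) = 2 / 15 by field_simp; norm_num] at hcrit
  rw [isoConst_affine B hS hSV, isoConst, show Real.sqrt (2 / 15)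
      = ((2 / 15 : ℝ) ^ n) ^ ((1 : ℝ) / (2 * n)) by
    rw [← Real.rpow_natCast, ← Real.rpow_mul (by norm_num), Real.sqrt_eq_rpow]
    congr 1; field_simp]
  refine Real.rpow_lt_rpow (by positivity) (hcrit.trans_eq ?_) (by positivity)
  rw [simplex_base]
  simp [mul_pow]
  field_simp
  ring

end Vale.Agent.P254.LpSub
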