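import Vale.Agent.P254.LpSub.Pins
import Vale.Agent.P254.FewSlabs.Moment

/-!
P254, subspaces of `ℓ_p`: for `p ≥ 2` the marginals of a symmetric convex body have moments of
order `p` at least those of a uniform law with the same second moment.
-/

noncomputable section

open MeasureTheory Set
open scoped ENNReal

namespace Vale.Agent.P254.LpSub

variable {m : ℕ} {K : Set (Fin (m + 1) → ℝ)}

lemma integral_abs_rpow {p A : ℝ} (hp : 0 ≤ p) (hA : 0 ≤ A) :
    ∫ u in (-A)..A, |u| ^ p = 2 * (A ^ (p + 1) / (p + 1)) := by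
  have hc : Continuous fun u : ℝ => |u| ^ p := continuous_abs.rpow_const fun _ => Or.inr hp
  have hpos : ∫ u in (0 : ℝ)..A, |u| ^ p = A ^ (p + 1) / (p + 1) := by
    rw [intervalIntegral.integral_congr (g := fun u : ℝ => u ^ p) (fun u hu => by
      rw [uIcc_of_le hA] at hu; simp [abs_of_nonneg hu.1]),
      integral_rpow (Or.inl (by linarith)), Real.zero_rpow (by linarith), sub_zero]
  have hneg : ∫ u in (-A)..0, |u| ^ p = ∫ u in (0 : ℝ)..A, |u| ^ p := by
    simpa using (intervalIntegral.integral_comp_neg (a := (0 : ℝ)) (b := A)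
      (fun u : ℝ => |u| ^ p)).symm
  rw [← intervalIntegral.integral_add_adjacent_intervals (b := 0) (hc.intervalIntegrable _ _)
    (hc.intervalIntegrable _ _), hneg, hpos]
  ring

/-- The tangent line of `x ^ (p / 2)`. -/
lemma tangent_le {p A s : ℝ} (hp : 2 ≤ p) (hA : 0 ≤ A) (hs : 0 < s) :
    s ^ p + p / 2 * (s ^ (p - 2) * (A ^ 2 - s ^ 2)) ≤ A ^ p := by
  have h := one_add_mul_self_le_rpow_one_add
    (show -1 ≤ A ^ 2 / s ^ 2 - 1 by linarith [show (0 : ℝ) ≤ A ^ 2 / s ^ 2 by positivity])
    (show 1 ≤ p / 2 by linarith)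
  have e1 : (1 + (A ^ 2 / s ^ 2 - 1)) ^ (p / 2) = A ^ p / s ^ p := by
    rw [add_sub_cancel, Real.div_rpow (sq_nonneg _) (sq_nonneg _), ← Real.rpow_natCast A 2,
      ← Real.rpow_natCast s 2, ← Real.rpow_mul hA, ← Real.rpow_mul hs.le]
    norm_num
    ring_nf
  have e2 : s ^ (p - 2) * s ^ 2 = s ^ p := by
    rw [← Real.rpow_natCast s 2, ← Real.rpow_add hs]; norm_num
  rw [e1, le_div_iff₀ (Real.rpow_pos_of_pos hs p)] at h
  have e3 : s ^ (p - 2) * (A ^ 2 - s ^ 2) = (A ^ 2 / s ^ 2 - 1) * s ^ p := by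
    rw [← e2]; field_simp
  rw [e3]
  linarith

/-- The weight tested against the slice function has nonnegative integral on every symmetric
interval. -/
lemma interval_le {p A s : ℝ} (hp : 2 ≤ p) (hA : 0 ≤ A) (hs : 0 < s) :
    ∫⁻ u in Icc (-A) A, ENNReal.ofReal (3 * p / 2 * s ^ (p - 2) * u ^ 2) ≤
      ∫⁻ u in Icc (-A) A, ENNReal.ofReal ((p + 1) * |u| ^ p + (p / 2 - 1) * s ^ p) := by
  have hc : Continuous fun u : ℝ => |u| ^ p :=
    continuous_abs.rpow_const fun _ => Or.inr (by linarith)
  have hsp : 0 ≤ s ^ p := (Real.rpow_pos_of_pos hs p).le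
  have hsp2 : 0 ≤ s ^ (p - 2) := (Real.rpow_pos_of_pos hs _).le
  rw [← ofReal_integral_eq_lintegral_ofReal (f := fun u : ℝ => 3 * p / 2 * s ^ (p - 2) * u ^ 2)
      ((continuous_const.mul (continuous_pow 2)).continuousOn.integrableOn_compact isCompact_Icc)
      (Filter.Eventually.of_forall fun u => by positivity),
    ← ofReal_integral_eq_lintegral_ofReal
      (f := fun u : ℝ => (p + 1) * |u| ^ p + (p / 2 - 1) * s ^ p)
      (((hc.const_mul _).add continuous_const).continuousOn.integrableOn_compact isCompact_Icc)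
      (Filter.Eventually.of_forall fun u => add_nonneg (mul_nonneg (by linarith)
        (Real.rpow_nonneg (abs_nonneg u) p)) (mul_nonneg (by linarith) hsp))]
  refine ENNReal.ofReal_le_ofReal ?_
  rw [integral_Icc_eq_integral_Ioc, integral_Icc_eq_integral_Ioc,
    ← intervalIntegral.integral_of_le (by linarith), ← intervalIntegral.integral_of_le (by linarith),
    intervalIntegral.integral_const_mul, integral_pow,
    intervalIntegral.integral_add ((hc.const_mul _).intervalIntegrable _ _) intervalIntegrable_const,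
    intervalIntegral.integral_const_mul, integral_abs_rpow (by linarith) hA,
    intervalIntegral.integral_const, smul_eq_mul]
  have e : (p + 1) * (2 * (A ^ (p + 1) / (p + 1))) = 2 * (A ^ p * A) := by
    rw [Real.rpow_add_one' hA (by linarith)]; field_simp
  rw [e]
  have h := mul_le_mul_of_nonneg_left (tangent_le hp hA hs) (show 0 ≤ 2 * A by linarith)
  have e2 : 2 * A * (p / 2 * (s ^ (p - 2) * (A ^ 2 - s ^ 2))) =
      p * (s ^ (p - 2) * A ^ 3) - A * p * (s ^ (p - 2) * s ^ 2) := by ring
  have e3 : s ^ (p - 2) * s ^ 2 = s ^ p := by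
    rw [← Real.rpow_natCast s 2, ← Real.rpow_add hs]; norm_num
  rw [e3] at e2
  ring_nf at e2 h ⊢
  linarith

/-- The inequality between the moments of a coordinate. -/
lemma coord_high (hK : IsCompact K) (hconv : Convex ℝ K) (hsym : ∀ x ∈ K, -x ∈ K)
    (i : Fin (m + 1)) {p s : ℝ} (hp : 2 ≤ p) (hs : 0 < s) :
    ∫ x in K, 3 * p / 2 * s ^ (p - 2) * x i ^ 2 ≤
      ∫ x in K, ((p + 1) * |x i| ^ p + (p / 2 - 1) * s ^ p) := by
  have hc : Continuous fun u : ℝ => |u| ^ p :=
    continuous_abs.rpow_const fun _ => Or.inr (by linarith)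
  set a : ℝ → ℝ := fun u => 3 * p / 2 * s ^ (p - 2) * u ^ 2 with ha
  set b : ℝ → ℝ := fun u => (p + 1) * |u| ^ p + (p / 2 - 1) * s ^ p with hb
  have hac : Continuous a := by fun_prop
  have hbc : Continuous b := (hc.const_mul _).add continuous_const
  have hsp : 0 ≤ s ^ p := (Real.rpow_pos_of_pos hs p).le
  have hsp2 : 0 ≤ s ^ (p - 2) := (Real.rpow_pos_of_pos hs _).le
  have ha0 : ∀ u, 0 ≤ a u := fun u => by simp only [ha]; positivity
  have hb0 : ∀ u, 0 ≤ b u := fun u => add_nonneg (mul_nonneg (by linarith)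
    (Real.rpow_nonneg (abs_nonneg u) p)) (mul_nonneg (by linarith) hsp)
  set g : ℝ → ℝ := fun u => (volume (slice K i u)).toReal with hg
  have hfin : ∀ u, volume (slice K i u) ≠ ∞ := fun u =>
    (isCompact_slice hK i u).measure_lt_top.ne
  have hgm : Measurable g := by
    have := measurable_lintegral_slice hK.measurableSet i (Φ := fun _ => 1) measurable_const
    exact ENNReal.measurable_toReal.comp (by simpa using this)
  have hganti : ∀ u v : ℝ, |u| ≤ |v| → g v ≤ g u := fun u v h =>
    ENNReal.toReal_mono (hfin u) (FewSlabs.slice_volume_anti hK hconv hsym i h)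
  obtain ⟨R, -, hR⟩ := exists_coord_bound hK
  have hrep : ∀ φ : ℝ → ℝ, Continuous φ → (∀ u, 0 ≤ φ u) →
      ENNReal.ofReal (∫ x in K, φ (x i)) = ∫⁻ t in Ioi (0 : ℝ),
        ∫⁻ u in {u : ℝ | t < g u}, ENNReal.ofReal (φ u) := by
    intro φ hφ hφ0
    rw [ofReal_integral_eq_lintegral_ofReal (f := fun x : Fin (m + 1) → ℝ => φ (x i))
      ((hφ.comp (continuous_apply i)).continuousOn.integrableOn_compact hK)
      (Filter.Eventually.of_forall fun x => hφ0 _),
      lintegral_coord hK.measurableSet i (φ := fun u => ENNReal.ofReal (φ u)) (by fun_prop)]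
    have hd : Measurable fun u => ENNReal.ofReal (φ u) := by fun_prop
    have hl := lintegral_eq_lintegral_meas_lt (volume.withDensity fun u => ENNReal.ofReal (φ u))
      (f := g) (Filter.Eventually.of_forall fun u => ENNReal.toReal_nonneg) hgm.aemeasurable
    rw [lintegral_withDensity_eq_lintegral_mul _ hd hgm.ennreal_ofReal] at hl
    refine ((lintegral_congr fun u => ?_).trans hl).trans
      (setLIntegral_congr_fun measurableSet_Ioi fun t _ =>
        withDensity_apply _ (measurableSet_lt measurable_const hgm))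
    simp [hg, ENNReal.ofReal_toReal (hfin u)]
  have key : ENNReal.ofReal (∫ x in K, a (x i)) ≤ ENNReal.ofReal (∫ x in K, b (x i)) := by
    rw [hrep a hac ha0, hrep b hbc hb0]
    refine setLIntegral_mono' measurableSet_Ioi fun t ht => ?_
    set S := {u : ℝ | t < g u} with hS
    rcases S.eq_empty_or_nonempty with he | hne
    · simp [he]
    have hbd : ∀ u ∈ S, |u| ≤ R := by
      intro u hu
      by_contra hh
      have h0 : g u = 0 := by simp [hg, slice_eq_empty hR (not_le.1 hh)]
      have : t < g u := hu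
      rw [h0] at this
      exact absurd this (not_lt.2 (le_of_lt ht))
    set A := sSup ((fun u => |u|) '' S) with hA
    have hbdd : BddAbove ((fun u : ℝ => |u|) '' S) :=
      ⟨R, by rintro _ ⟨u, hu, rfl⟩; exact hbd u hu⟩
    have hA0 : 0 ≤ A := by
      obtain ⟨u, hu⟩ := hne
      exact (abs_nonneg u).trans (le_csSup hbdd ⟨u, hu, rfl⟩)
    have h1 : S ⊆ Icc (-A) A := fun u hu => abs_le.1 (le_csSup hbdd ⟨u, hu, rfl⟩)
    have h2 : Ioo (-A) A ⊆ S := by
      intro u hu
      obtain ⟨_, ⟨v, hv, rfl⟩, huv⟩ := exists_lt_of_lt_csSup (hne.image _) (abs_lt.2 hu)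
      exact lt_of_lt_of_le hv (hganti u v huv.le)
    have hae : S =ᵐ[volume] Icc (-A) A :=
      (HasSubset.Subset.eventuallyLE h1).antisymm
        (Ioo_ae_eq_Icc.symm.le.trans (HasSubset.Subset.eventuallyLE h2))
    rw [setLIntegral_congr hae, setLIntegral_congr hae]
    exact interval_le hp hA0 hs
  exact (ENNReal.ofReal_le_ofReal_iff (integral_nonneg fun x => hb0 _)).1 key

theorem highMoment : HighMoment := by
  intro n K w p hK hconv hsym hV hp
  have hcont : Continuous fun x : Fin n → ℝ => ∑ j, w j * x j := by fun_prop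
  set V := (volume K).toReal with hVdef
  set σ := V⁻¹ * ∫ x in K, (∑ j, w j * x j) ^ 2 with hσ
  have hσ0 : 0 ≤ σ := mul_nonneg (inv_nonneg.2 hV.le) (integral_nonneg fun x => sq_nonneg _)
  have hR0 : 0 ≤ (p + 1) * (V⁻¹ * ∫ x in K, |∑ j, w j * x j| ^ p) :=
    mul_nonneg (by linarith) (mul_nonneg (inv_nonneg.2 hV.le)
      (integral_nonneg fun x => Real.rpow_nonneg (abs_nonneg _) p))
  rcases eq_or_lt_of_le hσ0 with h0 | hσpos
  · rw [← h0, mul_zero, Real.zero_rpow (by linarith)]; exact hR0
  set s := √(3 * σ) with hsdef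
  have hs : 0 < s := Real.sqrt_pos.2 (by linarith)
  have hs2 : s ^ 2 = 3 * σ := Real.sq_sqrt (by linarith)
  have hw : ∃ i, w i ≠ 0 := by
    by_contra hh
    push Not at hh
    simp [hσ, hh] at hσpos
  obtain ⟨i, hi⟩ := hw
  obtain ⟨m, rfl⟩ : ∃ m, n = m + 1 := ⟨n - 1, by have := i.2; omega⟩
  let T : (Fin (m + 1) → ℝ) →ₗ[ℝ] (Fin (m + 1) → ℝ) :=
    { toFun := fun y => Function.update y i (∑ j, w j * y j)
      map_add' := fun x y => by
        funext l
        rcases eq_or_ne l i with rfl | hl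
        · simp [mul_add, Finset.sum_add_distrib]
        · simp [hl]
      map_smul' := fun c x => by
        funext l
        rcases eq_or_ne l i with rfl | hl
        · simp [Finset.mul_sum, mul_left_comm]
        · simp [hl] }
  have hTinj : Function.Injective T := by
    intro x y h
    funext l
    have hoff : ∀ j, j ≠ i → x j = y j := fun j hj => by simpa [T, hj] using congrFun h j
    rcases eq_or_ne l i with rfl | hl
    · have h1 : ∑ j, w j * x j = ∑ j, w j * y j := by simpa [T] using congrFun h l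
      rw [← sub_eq_zero, ← Finset.sum_sub_distrib,
        Finset.sum_eq_single l (fun j _ hj => by rw [hoff j hj, sub_self]) (by simp),
        ← mul_sub] at h1
      simpa [hi, sub_eq_zero] using h1
    · exact hoff l hl
  set A : (Fin (m + 1) → ℝ) ≃ᵃ[ℝ] (Fin (m + 1) → ℝ) :=
    (LinearEquiv.ofInjectiveEndo T hTinj).toAffineEquiv with hA
  have hAx : ∀ x, A x = T x := fun x => rfl
  have hAi : ∀ x, A x i = ∑ j, w j * x j := fun x => by simp [hAx, T]
  have hKA : IsCompact (A '' K) := hK.image A.toAffineMap.continuous_of_finiteDimensional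
  have h := coord_high hKA
    (hconv.affine_image A.toAffineMap) (by
      rintro _ ⟨x, hx, rfl⟩
      exact ⟨-x, hsym x hx, by rw [hAx, hAx, map_neg]⟩) i hp hs
  rw [integral_affine_image A hK.measurableSet, integral_affine_image A hK.measurableSet] at h
  simp only [hAi] at h
  replace h := le_of_mul_le_mul_left h (abs_pos.2 (det_linear_ne_zero A))
  have hpc : Continuous fun x : Fin (m + 1) → ℝ => |∑ j, w j * x j| ^ p :=
    hcont.abs.rpow_const fun _ => Or.inr (by linarith)
  rw [integral_const_mul,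
    integral_add ((hpc.const_mul _).continuousOn.integrableOn_compact hK)
      (continuousOn_const.integrableOn_compact hK),
    integral_const_mul, setIntegral_const, smul_eq_mul, measureReal_def, ← hVdef] at h
  have hI : ∫ x in K, (∑ j, w j * x j) ^ 2 = V * (s ^ 2 / 3) := by
    rw [hs2, hσ]; field_simp
  rw [hI] at h
  have e2 : s ^ (p - 2) * s ^ 2 = s ^ p := by
    rw [← Real.rpow_natCast s 2, ← Real.rpow_add hs]; norm_num
  have e3 : (3 * σ) ^ (p / 2) = s ^ p := by
    rw [← hs2, ← Real.rpow_natCast s 2, ← Real.rpow_mul hs.le]; congr 1; push_cast; ring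
  have e4 : 3 * p / 2 * s ^ (p - 2) * (V * (s ^ 2 / 3)) = p / 2 * (V * s ^ p) := by
    rw [← e2]; ring
  rw [e4] at h
  rw [e3, ← mul_assoc, mul_comm (p + 1) V⁻¹, mul_assoc, inv_mul_eq_div, le_div_iff₀ hV]
  linarith

end Vale.Agent.P254.LpSub
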