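import Vale.Agent.P254.LpSub.Pins
import Vale.Agent.P254.Tail
import Vale.Agent.P254.Affine

/-!
P254, subspaces of `ℓ_p`: the second moment of a marginal of a symmetric convex body is at most
twice the square of its first absolute moment (log-concave tails).
-/

noncomputable section

open MeasureTheory Set
open scoped ENNReal

namespace Vale.Agent.P254.LpSub

namespace LowAux

variable {n : ℕ}

lemma setIntegral_neg_body {K : Set (Fin n → ℝ)} (hsym : ∀ x ∈ K, -x ∈ K)
    (f : (Fin n → ℝ) → ℝ) : ∫ x in K, f (-x) = ∫ x in K, f x := by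
  have h := (Measure.measurePreserving_neg (volume : Measure (Fin n → ℝ))).setIntegral_preimage_emb
    (MeasurableEquiv.neg (Fin n → ℝ)).measurableEmbedding f K
  rwa [show (fun x : Fin n → ℝ => -x) ⁻¹' K = K from Set.ext fun x =>
    ⟨fun hx => by simpa using hsym _ hx, fun hx => hsym x hx⟩] at h

/-- The moment comparison for a coordinate of a symmetric convex body. -/
lemma coord_sq_moment_le {K : Set (Fin n → ℝ)} (hK : IsCompact K) (hconv : Convex ℝ K)
    (hsym : ∀ x ∈ K, -x ∈ K) (i : Fin n) :
    (volume K).toReal * ∫ x in K, x i ^ 2 ≤ 2 * (∫ x in K, |x i|) ^ 2 := by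
  obtain ⟨R, hR0, hR⟩ := exists_coord_bound hK
  have hmi : Measurable fun x : Fin n → ℝ => x i := measurable_pi_apply i
  set A := ∫⁻ x in K, ENNReal.ofReal (max (x i) 0) with hA
  set B := ∫⁻ x in K, ENNReal.ofReal (max (x i) 0 ^ 2 / 2) with hB
  have hanti : Antitone fun s => tail K i s := fun a b hab =>
    measure_mono (inter_subset_inter_right _ fun x hx => le_trans hab hx)
  have hA' : A = ∫⁻ s in Set.Ioi (0 : ℝ), tail K i s := by
    simpa [hA] using pos_part_layer K i 0
  have hswap : B = ∫⁻ s in Set.Ioi (0 : ℝ), ∫⁻ t in Set.Ioi (0 : ℝ), tail K i (s + t) := by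
    rw [hB, lintegral_congr fun x : Fin n → ℝ => (lintegral_Ioi_pos_part (x i)).symm,
      lintegral_lintegral_swap]
    · exact lintegral_congr fun s => pos_part_layer K i s
    · exact (((hmi.comp measurable_fst).sub measurable_snd).max
        measurable_const).ennreal_ofReal.aemeasurable
  have hBA : B * tail K i 0 ≤ A * A := by
    have h2 : Antitone fun s => ∫⁻ t in Set.Ioi (0 : ℝ), tail K i (s + t) := fun a b hab =>
      lintegral_mono fun t => hanti (by linarith)
    rw [hswap, hA', ← lintegral_mul_const'' _ h2.measurable.aemeasurable,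
      ← lintegral_mul_const'' _ hanti.measurable.aemeasurable]
    refine setLIntegral_mono' measurableSet_Ioi fun s hs => ?_
    rw [← lintegral_const_mul'' _ hanti.measurable.aemeasurable,
      ← lintegral_mul_const'' _ (Antitone.measurable fun a b hab => hanti (by linarith)).aemeasurable]
    exact setLIntegral_mono' measurableSet_Ioi fun t ht =>
      tail_nbu hK hconv i (le_of_lt hs) (le_of_lt ht)
  have iP : IntegrableOn (fun x : Fin n → ℝ => max (x i) 0) K volume :=
    integrableOn_of_bound hK (hmi.max measurable_const) (M := R) fun x hx => by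
      rw [abs_of_nonneg (le_max_right _ _)]
      exact max_le ((le_abs_self _).trans (hR x hx i)) hR0
  have iQ : IntegrableOn (fun x : Fin n → ℝ => max (x i) 0 ^ 2 / 2) K volume :=
    integrableOn_of_bound hK (((hmi.max measurable_const).pow_const 2).div_const 2)
      (M := R ^ 2) fun x hx => by
      rw [abs_of_nonneg (by positivity)]
      have : max (x i) 0 ≤ R := max_le ((le_abs_self _).trans (hR x hx i)) hR0
      nlinarith [le_max_right (x i) 0]
  have eA : A.toReal = ∫ x in K, max (x i) 0 := by
    rw [integral_eq_lintegral_of_nonneg_ae (f := fun x : Fin n → ℝ => max (x i) 0)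
      (Filter.Eventually.of_forall fun x => le_max_right _ _) iP.aestronglyMeasurable, hA]
  have eB : B.toReal = ∫ x in K, max (x i) 0 ^ 2 / 2 := by
    rw [integral_eq_lintegral_of_nonneg_ae (Filter.Eventually.of_forall fun x => by positivity)
      iQ.aestronglyMeasurable]
  have hAfin : A ≠ ⊤ := iP.lintegral_lt_top.ne
  have hreal := ENNReal.toReal_mono (ENNReal.mul_ne_top hAfin hAfin) hBA
  rw [ENNReal.toReal_mul, ENNReal.toReal_mul, eA, eB] at hreal
  have habs : ∫ x in K, |x i| = 2 * ∫ x in K, max (x i) 0 := by
    have h1 : ∫ x in K, |x i|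
        = (∫ x in K, max (x i) 0) + ∫ x in K, max (-x i) 0 := by
      rw [← integral_add iP]
      · refine setIntegral_congr_fun hK.measurableSet fun x _ => ?_
        rcases le_total 0 (x i) with h | h <;> simp [h, abs_of_nonneg, abs_of_nonpos]
      · refine integrableOn_of_bound hK ?_ (M := R) fun x hx => ?_
        · fun_prop
        · rw [abs_of_nonneg (le_max_right _ _)]
          exact max_le ((neg_le_abs _).trans (hR x hx i)) hR0
    rw [h1, show ∫ x in K, max (-x i) 0 = ∫ x in K, max (x i) 0 from
      setIntegral_neg_body hsym fun x => max (x i) 0]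
    ring
  have hsq : ∫ x in K, x i ^ 2 = 4 * ∫ x in K, max (x i) 0 ^ 2 / 2 := by
    have h1 : ∫ x in K, x i ^ 2
        = 2 * (∫ x in K, max (x i) 0 ^ 2 / 2) + 2 * ∫ x in K, max (-x i) 0 ^ 2 / 2 := by
      rw [← integral_const_mul, ← integral_const_mul, ← integral_add]
      · refine setIntegral_congr_fun hK.measurableSet fun x _ => ?_
        rcases le_total 0 (x i) with h | h <;> simp [h] <;> ring
      · exact iQ.const_mul 2
      · refine integrableOn_of_bound hK ?_ (M := R ^ 2 * 2) fun x hx => ?_
        · fun_prop
        · rw [abs_of_nonneg (by positivity)]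
          have : max (-x i) 0 ≤ R := max_le ((neg_le_abs _).trans (hR x hx i)) hR0
          nlinarith [le_max_right (-x i) 0]
    rw [h1, show ∫ x in K, max (-x i) 0 ^ 2 / 2 = ∫ x in K, max (x i) 0 ^ 2 / 2 from
      setIntegral_neg_body hsym fun x => max (x i) 0 ^ 2 / 2]
    ring
  have hhalf : (volume K).toReal ≤ 2 * (tail K i 0).toReal := by
    have hsub : K ⊆ (K ∩ {x | 0 ≤ x i}) ∪ ((fun y : Fin n → ℝ => -y) ⁻¹' (K ∩ {x | 0 ≤ x i})) := by
      intro x hx
      rcases le_total 0 (x i) with h | h
      · exact Or.inl ⟨hx, h⟩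
      · exact Or.inr ⟨hsym x hx, by simp [h]⟩
    have h := (measure_mono hsub).trans (measure_union_le (μ := volume) _ _)
    rw [(Measure.measurePreserving_neg (volume : Measure (Fin n → ℝ))).measure_preimage
      (hK.measurableSet.inter (measurableSet_halfspace i 0)).nullMeasurableSet, ← two_mul] at h
    have h' := ENNReal.toReal_mono (ENNReal.mul_ne_top (by simp)
      (ne_top_of_le_ne_top hK.measure_lt_top.ne (measure_mono inter_subset_left))) h
    simpa [tail] using h'
  rw [habs, hsq]
  have hq0 : 0 ≤ ∫ x in K, max (x i) 0 ^ 2 / 2 := integral_nonneg fun x => by positivity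
  nlinarith [mul_le_mul_of_nonneg_right hhalf hq0, hreal]

/-- A linear form can be made a coordinate. -/
lemma exists_coord_map {w : Fin n → ℝ} {i : Fin n} (hi : w i ≠ 0) :
    ∃ A : (Fin n → ℝ) ≃ᵃ[ℝ] (Fin n → ℝ), (∀ x, A x i = ∑ j, w j * x j) ∧ ∀ x, A (-x) = -A x := by
  let T : (Fin n → ℝ) →ₗ[ℝ] (Fin n → ℝ) :=
    { toFun := fun y => Function.update y i (∑ j, w j * y j)
      map_add' := fun x y => by
        funext l
        rcases eq_or_ne l i with rfl | hl
        · simp [mul_add, Finset.sum_add_distrib]
        · simp [hl]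
      map_smul' := fun c x => by
        funext l
        rcases eq_or_ne l i with rfl | hl
        · simp [Finset.mul_sum, mul_left_comm]
        · simp [hl] }
  have hTinj : Function.Injective T := by
    intro x y h
    funext l
    have hoff : ∀ j, j ≠ i → x j = y j := fun j hj => by simpa [T, hj] using congrFun h j
    rcases eq_or_ne l i with rfl | hl
    · have h1 : ∑ j, w j * x j = ∑ j, w j * y j := by simpa [T] using congrFun h l
      rw [← sub_eq_zero, ← Finset.sum_sub_distrib,
        Finset.sum_eq_single l (fun j _ hj => by rw [hoff j hj, sub_self]) (by simp),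
        ← mul_sub] at h1
      simpa [hi, sub_eq_zero] using h1
    · exact hoff l hl
  exact ⟨(LinearEquiv.ofInjectiveEndo T hTinj).toAffineEquiv, fun x => Function.update_self ..,
    fun x => map_neg T x⟩

end LowAux

/-- The second moment of a marginal is at most twice the square of the first absolute one. -/
theorem lowMoment : LowMoment := by
  intro n K w hK hconv hsym
  by_cases hw : ∀ j, w j = 0
  · simp [hw]
  push Not at hw
  obtain ⟨i, hi⟩ := hw
  obtain ⟨A, hAi, hAneg⟩ := LowAux.exists_coord_map hi
  have h := LowAux.coord_sq_moment_le (hK.image A.toAffineMap.continuous_of_finiteDimensional)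
    (hconv.affine_image A.toAffineMap) (by
      rintro _ ⟨x, hx, rfl⟩
      exact ⟨-x, hsym x hx, hAneg x⟩) i
  simp only [AffineEquiv.coe_toAffineMap] at h
  rw [integral_affine_image A hK.measurableSet, integral_affine_image A hK.measurableSet,
    volume_affine_image A hK.measurableSet] at h
  simp only [hAi] at h
  have hd : 0 < |LinearMap.det A.linear.toLinearMap| := abs_pos.2 (det_linear_ne_zero A)
  refine le_of_mul_le_mul_left ?_ (mul_pos hd hd)
  linear_combination h

end Vale.Agent.P254.LpSub
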