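import Vale.Agent.P254.LpSub.Pins
import Vale.Agent.P254.FewSlabs.Main

/-!
P254, subspaces of `ℓ_p`: isotropic position and assembly of the blocks.
-/

noncomputable section

open MeasureTheory Set Matrix
open scoped Nat

namespace Vale.Agent.P254.LpSub

variable {n N : ℕ}

lemma lpBody_symm (a : Fin N → Fin n → ℝ) (p : ℝ) : ∀ x ∈ lpBody a p, -x ∈ lpBody a p :=
  fun x hx => by simpa [lpBody, Finset.sum_neg_distrib, abs_neg] using hx

lemma lpBody_isClosed (a : Fin N → Fin n → ℝ) {p : ℝ} (hp : 0 ≤ p) : IsClosed (lpBody a p) :=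
  isClosed_le (continuous_finsetSum _ fun i _ =>
    (by fun_prop : Continuous fun x : Fin n → ℝ => |∑ j, a i j * x j|).rpow_const
      fun _ => Or.inr hp) continuous_const

lemma lpBody_convex (a : Fin N → Fin n → ℝ) {p : ℝ} (hp : 1 ≤ p) : Convex ℝ (lpBody a p) := by
  intro x hx y hy s t hs ht hst
  have hlin : ∀ i, ∑ j, a i j * (s • x + t • y) j
      = s * ∑ j, a i j * x j + t * ∑ j, a i j * y j := fun i => by
    rw [Finset.mul_sum, Finset.mul_sum, ← Finset.sum_add_distrib]
    exact Finset.sum_congr rfl fun j _ => by simp; ring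
  show ∑ i, |∑ j, a i j * (s • x + t • y) j| ^ p ≤ 1
  calc ∑ i, |∑ j, a i j * (s • x + t • y) j| ^ p
      ≤ ∑ i, (s * |∑ j, a i j * x j| ^ p + t * |∑ j, a i j * y j| ^ p) :=
        Finset.sum_le_sum fun i _ => by
          rw [hlin]
          have h1 : |s * ∑ j, a i j * x j + t * ∑ j, a i j * y j|
              ≤ s * |∑ j, a i j * x j| + t * |∑ j, a i j * y j| := by
            refine (abs_add_le _ _).trans (le_of_eq ?_)
            rw [abs_mul, abs_mul, abs_of_nonneg hs, abs_of_nonneg ht]
          refine (Real.rpow_le_rpow (abs_nonneg _) h1 (by linarith)).trans ?_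
          exact (convexOn_rpow hp).2 (Set.mem_Ici.2 (abs_nonneg _)) (Set.mem_Ici.2 (abs_nonneg _)) hs ht hst
    _ = s * ∑ i, |∑ j, a i j * x j| ^ p + t * ∑ i, |∑ j, a i j * y j| ^ p := by
        rw [Finset.sum_add_distrib, ← Finset.mul_sum, ← Finset.mul_sum]
    _ ≤ s * 1 + t * 1 := add_le_add (mul_le_mul_of_nonneg_left hx hs) (mul_le_mul_of_nonneg_left hy ht)
    _ = 1 := by linarith

lemma lpBody_compact (a : Fin N → Fin n → ℝ) {p : ℝ} (hp : 0 ≤ p)
    (hb : Bornology.IsBounded (lpBody a p)) : IsCompact (lpBody a p) :=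
  Metric.isCompact_of_isClosed_isBounded (lpBody_isClosed a hp) hb

lemma lpBody_volume_pos (a : Fin N → Fin n → ℝ) {p : ℝ} (hp : 0 < p)
    (hb : Bornology.IsBounded (lpBody a p)) : 0 < (volume (lpBody a p)).toReal := by
  refine ENNReal.toReal_pos (ne_of_gt ?_) (lpBody_compact a hp.le hb).measure_lt_top.ne
  have hopen : IsOpen {x : Fin n → ℝ | ∑ i, |∑ j, a i j * x j| ^ p < 1} :=
    isOpen_lt (continuous_finsetSum _ fun i _ =>
      (by fun_prop : Continuous fun x : Fin n → ℝ => |∑ j, a i j * x j|).rpow_const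
        fun _ => Or.inr hp.le) continuous_const
  exact (hopen.measure_pos volume ⟨0, by simp [Real.zero_rpow hp.ne']⟩).trans_le
    (measure_mono fun x hx => le_of_lt (show _ < (1 : ℝ) from hx))

/-- Moving the body to isotropic position. -/
lemma exists_isotropic (a : Fin N → Fin n → ℝ) {p : ℝ} (hp : 1 ≤ p)
    (hb : Bornology.IsBounded (lpBody a p)) :
    ∃ (b : Fin N → Fin n → ℝ) (A : (Fin n → ℝ) ≃ᵃ[ℝ] (Fin n → ℝ)),
      lpBody b p = A '' lpBody a p ∧ Bornology.IsBounded (lpBody b p) ∧
      ∀ j k, (volume (lpBody b p)).toReal⁻¹ * ∫ x in lpBody b p, x j * x k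
        = if j = k then 1 else 0 := by
  classical
  set K := lpBody a p with hK
  have hKc : IsCompact K := lpBody_compact a (by linarith) hb
  have hV : 0 < (volume K).toReal := lpBody_volume_pos a (by linarith) hb
  set V := (volume K).toReal with hVdef
  have hint : ∀ f : (Fin n → ℝ) → ℝ, Continuous f → IntegrableOn f K volume := fun f hf =>
    hf.continuousOn.integrableOn_compact hKc
  set C : Matrix (Fin n) (Fin n) ℝ := Matrix.of fun j k => V⁻¹ * ∫ x in K, x j * x k with hC
  have hquad : ∀ v : Fin n → ℝ, star v ⬝ᵥ (C *ᵥ v) = V⁻¹ * ∫ x in K, (∑ j, v j * x j) ^ 2 := by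
    intro v
    have e2 : ∀ x : Fin n → ℝ, (∑ j, v j * x j) ^ 2
        = ∑ j, ∑ k, v j * v k * (x j * x k) := fun x => by
      rw [sq, Finset.sum_mul_sum]
      exact Finset.sum_congr rfl fun j _ => Finset.sum_congr rfl fun k _ => by ring
    simp only [e2]
    rw [integral_finsetSum _ fun j _ => integrable_finsetSum _ fun k _ => hint _ (by fun_prop)]
    simp only [dotProduct, Matrix.mulVec, star_trivial, hC, Matrix.of_apply, Finset.mul_sum]
    refine Finset.sum_congr rfl fun j _ => ?_
    rw [integral_finsetSum _ fun k _ => hint _ (by fun_prop), Finset.mul_sum]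
    exact Finset.sum_congr rfl fun k _ => by rw [integral_const_mul]; ring
  have hCp : C.PosDef := by
    refine Matrix.PosDef.of_dotProduct_mulVec_pos (by
      ext j k; simp [hC, Matrix.conjTranspose_apply, mul_comm]) fun v hv => ?_
    rw [hquad]
    refine mul_pos (inv_pos.2 hV) ((setIntegral_pos_iff_support_of_nonneg_ae
      (Filter.Eventually.of_forall fun x => sq_nonneg _) (hint _ (by fun_prop))).2 ?_)
    obtain ⟨j, hj⟩ : ∃ j, v j ≠ 0 := Function.ne_iff.1 hv
    set U := {x : Fin n → ℝ | ∑ i, |∑ j, a i j * x j| ^ p < 1} ∩ {x | ∑ j, v j * x j ≠ 0} with hU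
    have hUo : IsOpen U := (isOpen_lt (continuous_finsetSum _ fun i _ =>
      (by fun_prop : Continuous fun x : Fin n → ℝ => |∑ j, a i j * x j|).rpow_const
        fun _ => Or.inr (by linarith)) continuous_const).inter
      (isOpen_ne_fun (by fun_prop) continuous_const)
    have hUne : U.Nonempty := by
      set f : ℝ → (Fin n → ℝ) := fun t => Pi.single j t with hf
      have h0 : f 0 ∈ {x : Fin n → ℝ | ∑ i, |∑ j, a i j * x j| ^ p < 1} := by
        simp [hf, Real.zero_rpow (show p ≠ 0 by linarith)]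
      have hmem := (isOpen_lt (continuous_finsetSum _ fun i _ =>
        (by fun_prop : Continuous fun x : Fin n → ℝ => |∑ j, a i j * x j|).rpow_const
          fun _ => Or.inr (by linarith : 0 ≤ p)) continuous_const).preimage
            (show Continuous f from continuous_single (A := fun _ : Fin n => ℝ) j) |>.mem_nhds h0
      obtain ⟨t, ht, ht0⟩ := ((nhdsWithin_le_nhds (s := {(0 : ℝ)}ᶜ) hmem : _) |>
        fun h => Filter.inter_mem h self_mem_nhdsWithin) |> Filter.nonempty_of_mem
      exact ⟨f t, ht, by simpa [hf, Pi.single_apply, hj] using ht0⟩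
    refine (hUo.measure_pos volume hUne).trans_le (measure_mono fun x hx => ⟨?_, ?_⟩)
    · simpa [Function.mem_support] using hx.2
    · exact le_of_lt (show ∑ i, |∑ j, a i j * x j| ^ p < (1 : ℝ) from hx.1)
  set O : Matrix (Fin n) (Fin n) ℝ := (hCp.1.eigenvectorUnitary : Matrix (Fin n) (Fin n) ℝ) with hO
  set l := hCp.1.eigenvalues with hl
  have hlpos : ∀ k, 0 < l k := hCp.eigenvalues_pos
  have hdiag : Oᵀ * C * O = diagonal l := by
    have h1 := hCp.1.conjStarAlgAut_star_eigenvectorUnitary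
    rw [Unitary.conjStarAlgAut_star_apply] at h1
    simpa [hO, hl, star_eq_conjTranspose] using h1
  set S := (diagonal fun k => 1 / √(l k)) * Oᵀ with hS
  have hSS : S * C * Sᵀ = 1 := by
    rw [hS, Matrix.transpose_mul, Matrix.diagonal_transpose, Matrix.transpose_transpose,
      show ∀ D : Matrix (Fin n) (Fin n) ℝ, D * Oᵀ * C * (O * D) = D * (Oᵀ * C * O) * D from
        fun D => by simp only [Matrix.mul_assoc],
      hdiag, Matrix.diagonal_mul_diagonal, Matrix.diagonal_mul_diagonal, ← Matrix.diagonal_one]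
    congr 1
    funext k
    have := Real.mul_self_sqrt (hlpos k).le
    rw [show ∀ c e : ℝ, 1 / c * e * (1 / c) = e / (c * c) from fun c e => by ring, this,
      div_self (hlpos k).ne']
  have hdet : IsUnit S.det := by
    have h1 := congrArg Matrix.det hSS
    rw [Matrix.det_mul, Matrix.det_mul, Matrix.det_transpose, Matrix.det_one] at h1
    exact IsUnit.of_mul_eq_one (C.det * S.det) (by linear_combination h1)
  set A : (Fin n → ℝ) ≃ᵃ[ℝ] (Fin n → ℝ) :=
    (Matrix.toLinearEquiv' S ((Matrix.isUnit_iff_isUnit_det S).2 hdet).invertible).toAffineEquiv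
  have hAx : ∀ x, A x = S *ᵥ x := fun x => rfl
  set R : Matrix (Fin N) (Fin n) ℝ := Matrix.of a * S⁻¹ with hR
  have key : ∀ x i, ∑ j, R i j * (S *ᵥ x) j = ∑ j, a i j * x j := fun x i => by
    have := congrFun (Matrix.mulVec_mulVec x R S) i
    rw [hR, Matrix.mul_assoc, Matrix.nonsing_inv_mul _ hdet, Matrix.mul_one] at this
    simpa [Matrix.mulVec, dotProduct] using this
  have himg : lpBody (fun i j => R i j) p = A '' K := by
    ext y
    constructor
    · intro hy
      refine ⟨S⁻¹ *ᵥ y, ?_, ?_⟩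
      · show ∑ i, |∑ j, a i j * (S⁻¹ *ᵥ y) j| ^ p ≤ 1
        simp only [← key, Matrix.mulVec_mulVec, Matrix.mul_nonsing_inv _ hdet, Matrix.one_mulVec]
        exact hy
      · rw [hAx, Matrix.mulVec_mulVec, Matrix.mul_nonsing_inv _ hdet, Matrix.one_mulVec]
    · rintro ⟨x, hx, rfl⟩
      show ∑ i, |∑ j, R i j * (A x) j| ^ p ≤ 1
      simp only [hAx, key]
      exact hx
  refine ⟨fun i j => R i j, A, himg, himg ▸
    (hKc.image A.toAffineMap.continuous_of_finiteDimensional).isBounded, fun j k => ?_⟩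
  rw [himg, volume_affine_image A hKc.measurableSet,
    integral_affine_image A hKc.measurableSet fun x => x j * x k, ← hVdef]
  have hd : |LinearMap.det A.linear.toLinearMap| ≠ 0 := abs_ne_zero.2 (det_linear_ne_zero A)
  have e : ∫ x in K, A x j * A x k = ∑ l, ∑ m, S j l * S k m * ∫ x in K, x l * x m := by
    have e1 : ∀ x : Fin n → ℝ, A x j * A x k = ∑ l, ∑ m, S j l * S k m * (x l * x m) := fun x => by
      simp only [hAx, Matrix.mulVec, dotProduct, Finset.sum_mul_sum]
      exact Finset.sum_congr rfl fun l _ => Finset.sum_congr rfl fun m _ => by ring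
    simp only [e1]
    rw [integral_finsetSum _ fun l _ => integrable_finsetSum _ fun m _ => hint _ (by fun_prop)]
    refine Finset.sum_congr rfl fun l _ => ?_
    rw [integral_finsetSum _ fun m _ => hint _ (by fun_prop)]
    exact Finset.sum_congr rfl fun m _ => integral_const_mul _ _
  have h2 := congrFun (congrFun hSS j) k
  rw [Matrix.one_apply] at h2
  rw [← h2, e]
  simp only [Matrix.mul_apply, Matrix.transpose_apply, hC, Matrix.of_apply, Finset.mul_sum,
    Finset.sum_mul]
  rw [Finset.sum_comm]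
  refine Finset.sum_congr rfl fun m _ => Finset.sum_congr rfl fun l _ => ?_
  field_simp

lemma growth : ∀ n : ℕ, 200 ≤ n → 7.39 * ((n : ℝ) + 1) ^ 2 < (1.0724 : ℝ) ^ n := by
  intro n hn
  induction n, hn using Nat.le_induction with
  | base => norm_num
  | succ m hm ih =>
    have hm' : (200 : ℝ) ≤ m := by exact_mod_cast hm
    push_cast
    have h2 : ((m : ℝ) + 1 + 1) ^ 2 ≤ 1.0724 * ((m : ℝ) + 1) ^ 2 := by nlinarith
    calc 7.39 * ((m : ℝ) + 1 + 1) ^ 2 ≤ 1.0724 * (7.39 * ((m : ℝ) + 1) ^ 2) := by linarith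
      _ < 1.0724 * (1.0724 : ℝ) ^ m := mul_lt_mul_of_pos_left ih (by norm_num)
      _ = _ := by rw [pow_succ]; ring

/-- The second moments of the marginals in isotropic position. -/
lemma sq_marginal {K : Set (Fin n → ℝ)} (hKc : IsCompact K)
    (hiso : ∀ j k, (volume K).toReal⁻¹ * ∫ x in K, x j * x k = if j = k then 1 else 0)
    (w : Fin n → ℝ) :
    (volume K).toReal⁻¹ * ∫ x in K, (∑ j, w j * x j) ^ 2 = ∑ j, w j ^ 2 := by
  have e2 : ∀ x : Fin n → ℝ, (∑ j, w j * x j) ^ 2
      = ∑ j, ∑ k, w j * w k * (x j * x k) := fun x => by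
    rw [sq, Finset.sum_mul_sum]
    exact Finset.sum_congr rfl fun j _ => Finset.sum_congr rfl fun k _ => by ring
  have hint : ∀ f : (Fin n → ℝ) → ℝ, Continuous f → IntegrableOn f K volume := fun f hf =>
    hf.continuousOn.integrableOn_compact hKc
  simp only [e2]
  rw [integral_finsetSum _ fun j _ => integrable_finsetSum _ fun k _ => hint _ (by fun_prop),
    Finset.mul_sum]
  refine Finset.sum_congr rfl fun j _ => ?_
  rw [integral_finsetSum _ fun k _ => hint _ (by fun_prop), Finset.mul_sum]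
  have : ∀ k, (volume K).toReal⁻¹ * ∫ x in K, w j * w k * (x j * x k)
      = w j * w k * (if j = k then 1 else 0) := fun k => by
    rw [integral_const_mul, ← hiso j k]; ring
  simp only [this]
  simp [sq]

/-- The bound in isotropic position. -/
lemma volume_large (hH : HighMoment) (hL : LowMoment) (hV : VolumeLower) (hΓ : GammaUpper)
    (hN : MomentNumeric) (hn : 200 ≤ n) (a : Fin N → Fin n → ℝ) {p : ℝ} (hp : 1 ≤ p)
    (hp' : p ≤ 10) (hb : Bornology.IsBounded (lpBody a p))
    (hiso : ∀ j k, (volume (lpBody a p)).toReal⁻¹ * ∫ x in lpBody a p, x j * x k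
      = if j = k then 1 else 0) :
    (15 / 2 : ℝ) ^ n < (volume (lpBody a p)).toReal ^ 2 := by
  set K := lpBody a p with hK
  have hp0 : 0 < p := by linarith
  have hn0 : (0 : ℝ) < n := by exact_mod_cast (show 0 < n by omega)
  have hKc : IsCompact K := lpBody_compact a hp0.le hb
  have hconv : Convex ℝ K := lpBody_convex a hp
  have hsym := lpBody_symm a p
  set V := (volume K).toReal with hVdef
  have hV0 : 0 < V := lpBody_volume_pos a hp0 hb
  have hi : ∀ i, IntegrableOn (fun x : Fin n → ℝ => |∑ j, a i j * x j| ^ p) K volume := fun i =>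
    ((by fun_prop : Continuous fun x : Fin n → ℝ => |∑ j, a i j * x j|).rpow_const
      fun _ => Or.inr hp0.le).continuousOn.integrableOn_compact hKc
  set m : Fin N → ℝ := fun i => V⁻¹ * ∫ x in K, |∑ j, a i j * x j| ^ p with hm
  have hm1 : ∑ i, m i ≤ 1 := by
    simp only [hm, ← Finset.mul_sum]
    rw [← integral_finsetSum _ fun i _ => hi i, inv_mul_le_iff₀ hV0, mul_one]
    calc ∫ x in K, ∑ i, |∑ j, a i j * x j| ^ p ≤ ∫ _x in K, (1 : ℝ) :=
          setIntegral_mono_on (integrable_finsetSum _ fun i _ => hi i)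
            (integrableOn_const hKc.measure_lt_top.ne) hKc.measurableSet fun x hx => hx
      _ = V := by simp [Measure.real, hVdef]
  set r : Fin N → ℝ := fun i => √(∑ j, a i j ^ 2) with hr
  have hr0 : ∀ i, 0 ≤ r i := fun i => Real.sqrt_nonneg _
  have hr2 : ∀ i, V⁻¹ * ∫ x in K, (∑ j, a i j * x j) ^ 2 = r i ^ 2 := fun i => by
    rw [sq_marginal hKc hiso, hr, Real.sq_sqrt (Finset.sum_nonneg fun j _ => sq_nonneg _)]
  set C : ℝ := 637 / 300 with hCdef
  have hgm0 : 0 < gm p := div_pos (mul_pos (Real.rpow_pos_of_pos two_pos _)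
    (Real.Gamma_pos_of_pos (by linarith))) (Real.sqrt_pos.2 Real.pi_pos)
  -- the Gaussian size of the norm is at most `C ^ (p / 2)`
  have hM : gm p * ∑ i, r i ^ p ≤ C ^ (p / 2) := by
    rcases le_total p 2 with h2 | h2
    · have hterm : ∀ i, r i ^ p ≤ 2 ^ (p / 2) * m i := by
        intro i
        set e := V⁻¹ * ∫ x in K, |∑ j, a i j * x j| with he
        have he0 : 0 ≤ e := mul_nonneg (inv_nonneg.2 hV0.le) (integral_nonneg fun x => abs_nonneg _)
        have h1 : r i ^ 2 ≤ 2 * e ^ 2 := by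
          have := hL n K (a i) hKc hconv hsym
          rw [← hr2, he, mul_pow, ← mul_le_mul_iff_right₀ (pow_pos hV0 2)]
          calc V ^ 2 * (V⁻¹ * ∫ x in K, (∑ j, a i j * x j) ^ 2)
              = V * ∫ x in K, (∑ j, a i j * x j) ^ 2 := by field_simp
            _ ≤ _ := this
            _ = _ := by field_simp
        have h3 : e ^ p ≤ m i := by
          rcases eq_or_lt_of_le he0 with h0 | h0
          · rw [← h0, Real.zero_rpow hp0.ne']
            exact mul_nonneg (inv_nonneg.2 hV0.le)
              (integral_nonneg fun x => Real.rpow_nonneg (abs_nonneg _) _)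
          · have hpt : ∀ t : ℝ, 0 ≤ t → e ^ p * (1 - p) + e ^ p * p / e * t ≤ t ^ p := by
              intro t ht
              have h4 := one_add_mul_self_le_rpow_one_add (s := t / e - 1)
                (by linarith [div_nonneg ht he0]) hp
              rw [add_sub_cancel, Real.div_rpow ht he0, le_div_iff₀ (Real.rpow_pos_of_pos h0 p)] at h4
              calc e ^ p * (1 - p) + e ^ p * p / e * t = (1 + p * (t / e - 1)) * e ^ p := by ring
                _ ≤ t ^ p := h4
            have iabs : IntegrableOn (fun x : Fin n → ℝ => |∑ j, a i j * x j|) K volume :=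
              (by fun_prop : Continuous fun x : Fin n → ℝ => |∑ j, a i j * x j|).continuousOn
                |>.integrableOn_compact hKc
            have ic : IntegrableOn (fun _ : Fin n → ℝ => e ^ p * (1 - p)) K volume :=
              integrableOn_const hKc.measure_lt_top.ne
            have h4 := setIntegral_mono_on (ic.add (iabs.const_mul (e ^ p * p / e))) (hi i)
              hKc.measurableSet fun x _ => hpt _ (abs_nonneg _)
            rw [integral_add' ic (iabs.const_mul _), setIntegral_const, integral_const_mul] at h4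
            have h5 := mul_le_mul_of_nonneg_left h4 (inv_nonneg.2 hV0.le)
            refine le_trans (le_of_eq ?_) h5
            rw [Measure.real, ← hVdef, smul_eq_mul, mul_add, ← mul_assoc V⁻¹ V,
              inv_mul_cancel₀ hV0.ne', one_mul, mul_left_comm, ← he, div_mul_cancel₀ _ h0.ne']
            ring
        calc r i ^ p = (r i ^ 2) ^ (p / 2) := by
              rw [← Real.rpow_natCast, ← Real.rpow_mul (hr0 i)]; push_cast; ring_nf
          _ ≤ (2 * e ^ 2) ^ (p / 2) := Real.rpow_le_rpow (sq_nonneg _) h1 (by linarith)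
          _ = 2 ^ (p / 2) * e ^ p := by
              rw [Real.mul_rpow two_pos.le (sq_nonneg _), ← Real.rpow_natCast,
                ← Real.rpow_mul he0]
              push_cast; ring_nf
          _ ≤ _ := mul_le_mul_of_nonneg_left h3 (by positivity)
      calc gm p * ∑ i, r i ^ p ≤ 1 * ∑ i, 2 ^ (p / 2) * m i :=
            mul_le_mul (hN.1 p hp h2) (Finset.sum_le_sum fun i _ => hterm i)
              (Finset.sum_nonneg fun i _ => Real.rpow_nonneg (hr0 i) _) zero_le_one
        _ ≤ (2 : ℝ) ^ (p / 2) := by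
            rw [one_mul, ← Finset.mul_sum]
            exact mul_le_of_le_one_right (by positivity) hm1
        _ ≤ C ^ (p / 2) := Real.rpow_le_rpow two_pos.le (by norm_num [hCdef]) (by linarith)
    · have hterm : ∀ i, (3 : ℝ) ^ (p / 2) * r i ^ p ≤ (p + 1) * m i := by
        intro i
        have h1 := hH n K (a i) p hKc hconv hsym hV0 h2
        rw [hr2] at h1
        refine le_trans (le_of_eq ?_) h1
        rw [Real.mul_rpow (by norm_num) (sq_nonneg _), ← Real.rpow_natCast (r i) 2,
          ← Real.rpow_mul (hr0 i)]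
        push_cast; ring_nf
      have h3 : (3 : ℝ) ^ (p / 2) * ∑ i, r i ^ p ≤ p + 1 := by
        rw [Finset.mul_sum]
        refine (Finset.sum_le_sum fun i _ => hterm i).trans ?_
        rw [← Finset.mul_sum]
        exact mul_le_of_le_one_right (by linarith) hm1
      refine le_of_mul_le_mul_left ?_ (Real.rpow_pos_of_pos (show (0 : ℝ) < 3 by norm_num) (p / 2))
      calc (3 : ℝ) ^ (p / 2) * (gm p * ∑ i, r i ^ p)
          = gm p * ((3 : ℝ) ^ (p / 2) * ∑ i, r i ^ p) := by ring
        _ ≤ gm p * (p + 1) := mul_le_mul_of_nonneg_left h3 hgm0.le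
        _ = (p + 1) * gm p := mul_comm _ _
        _ ≤ (637 / 100 : ℝ) ^ (p / 2) := hN.2 p h2 hp'
        _ = _ := by
            rw [hCdef, ← Real.mul_rpow (by norm_num) (by norm_num)]; norm_num
  have hC0 : (0 : ℝ) < C := by norm_num [hCdef]
  have hvol := hV n N a p (C ^ (p / 2)) (by omega) hp hb (Real.rpow_pos_of_pos hC0 _) hM
  set k : ℝ := (n : ℝ) / p with hk
  have hk0 : 0 < k := div_pos hn0 hp0
  have hCk : (C ^ (p / 2)) ^ k = C ^ ((n : ℝ) / 2) := by
    rw [← Real.rpow_mul hC0.le]; congr 1; rw [hk]; field_simp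
  have hE : Real.exp 1 ^ k = Real.exp k := Real.exp_one_rpow k
  rw [Real.div_rpow hk0.le (Real.rpow_nonneg hC0.le _), hCk, Real.exp_neg] at hvol
  have hg := hΓ k hk0
  rw [Real.div_rpow hk0.le (Real.exp_pos _).le, hE] at hg
  have h1 := hvol.trans (mul_le_mul_of_nonneg_right hg hV0.le)
  set Q := (2 * Real.pi * Real.exp 1) ^ ((n : ℝ) / 2) / C ^ ((n : ℝ) / 2) with hQ
  have hkk : 0 < k ^ k := Real.rpow_pos_of_pos hk0 k
  have h2 : Q ≤ Real.exp 1 * ((n : ℝ) + 1) * V := by
    have h3 : Q * (k ^ k / Real.exp k) ≤ Real.exp 1 * (k + 1) * V * (k ^ k / Real.exp k) := by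
      refine le_trans (le_of_eq ?_) (h1.trans (le_of_eq ?_))
      · rw [hQ]; ring
      · ring
    refine (le_of_mul_le_mul_right h3 (div_pos hkk (Real.exp_pos _))).trans ?_
    refine mul_le_mul_of_nonneg_right (mul_le_mul_of_nonneg_left ?_ (Real.exp_pos _).le) hV0.le
    have : k ≤ n := by rw [hk]; exact div_le_self hn0.le hp
    linarith
  have hq : (15 / 2 : ℝ) * 1.0724 ≤ 2 * Real.pi * Real.exp 1 / C := by
    rw [hCdef, le_div_iff₀ (by norm_num)]
    nlinarith [Real.pi_gt_d4, Real.exp_one_gt_d9]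
  have hQ2 : Q ^ 2 = (2 * Real.pi * Real.exp 1 / C) ^ n := by
    have h2π : (0 : ℝ) ≤ 2 * Real.pi * Real.exp 1 := by positivity
    rw [hQ, ← Real.div_rpow h2π hC0.le, ← Real.rpow_natCast, ← Real.rpow_mul (by positivity)]
    push_cast
    rw [show (n : ℝ) / 2 * 2 = n by ring, Real.rpow_natCast]
  have he2 : Real.exp 1 ^ 2 ≤ 7.39 := by nlinarith [Real.exp_one_lt_d9, Real.exp_pos 1]
  have h5 : (15 / 2 : ℝ) ^ n * (1.0724 : ℝ) ^ n ≤ 7.39 * ((n : ℝ) + 1) ^ 2 * V ^ 2 := by
    calc (15 / 2 : ℝ) ^ n * (1.0724 : ℝ) ^ n = ((15 / 2 : ℝ) * 1.0724) ^ n := (mul_pow _ _ n).symm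
      _ ≤ Q ^ 2 := hQ2 ▸ pow_le_pow_left₀ (by norm_num) hq n
      _ ≤ (Real.exp 1 * ((n : ℝ) + 1) * V) ^ 2 := pow_le_pow_left₀ (by positivity) h2 2
      _ = Real.exp 1 ^ 2 * ((n : ℝ) + 1) ^ 2 * V ^ 2 := by ring
      _ ≤ _ := by gcongr
  by_contra hcon
  push Not at hcon
  have h6 := mul_lt_mul_of_pos_left (growth n hn) (pow_pos hV0 2)
  nlinarith [mul_le_mul_of_nonneg_right hcon (pow_nonneg (show (0 : ℝ) ≤ 1.0724 by norm_num) n)]

/-- The theorem from the blocks. -/
theorem main_of_blocks (hH : HighMoment) (hL : LowMoment) (hV : VolumeLower) (hΓ : GammaUpper)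
    (hN : MomentNumeric) (hn : 200 ≤ n) (a : Fin N → Fin n → ℝ) {p : ℝ} (hp : 1 ≤ p)
    (hp' : p ≤ 10) (hb : Bornology.IsBounded (lpBody a p)) :
    isoConst (lpBody a p) ≤ Real.sqrt (2 / 15) ∧
      ∀ B : (Fin n → ℝ) ≃ᵃ[ℝ] (Fin n → ℝ),
        isoConst (lpBody a p) < isoConst (B '' stdSimplexBody n) := by
  have hp0 : 0 < p := by linarith
  have hn0 : (0 : ℝ) < n := by exact_mod_cast (show 0 < n by omega)
  obtain ⟨b, A, himg, hbb, hiso⟩ := exists_isotropic a hp hb
  rw [← isoConst_affine A (lpBody_compact a hp0.le hb) (lpBody_volume_pos a hp0 hb), ← himg]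
  have hlarge := volume_large hH hL hV hΓ hN hn b hp hp' hbb hiso
  have hV0 := lpBody_volume_pos b hp0 hbb
  have hcov : covMatrix (lpBody b p) = 1 := by
    ext j k
    simp only [covMatrix, Matrix.of_apply, FewSlabs.centroid_eq_zero (lpBody_symm b p), sub_zero,
      hiso, Matrix.one_apply]
  have hle : (covMatrix (lpBody b p)).det / (volume (lpBody b p)).toReal ^ 2 < (2 / 15 : ℝ) ^ n := by
    rw [hcov, Matrix.det_one, div_lt_iff₀ (pow_pos hV0 2)]
    calc (1 : ℝ) = (2 / 15 : ℝ) ^ n * (15 / 2) ^ n := by rw [← mul_pow]; norm_num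
      _ < _ := mul_lt_mul_of_pos_left hlarge (by positivity)
  have h0 : 0 ≤ (covMatrix (lpBody b p)).det / (volume (lpBody b p)).toReal ^ 2 := by
    rw [hcov, Matrix.det_one]; positivity
  refine ⟨?_, fun B => ?_⟩
  · rw [isoConst]
    calc ((covMatrix (lpBody b p)).det / (volume (lpBody b p)).toReal ^ 2) ^ ((1 : ℝ) / (2 * n))
        ≤ ((2 / 15 : ℝ) ^ n) ^ ((1 : ℝ) / (2 * n)) := Real.rpow_le_rpow h0 hle.le (by positivity)
      _ = Real.sqrt (2 / 15) := by
          rw [← Real.rpow_natCast, ← Real.rpow_mul (by norm_num), Real.sqrt_eq_rpow]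
          congr 1
          field_simp
  · have hS : IsCompact (stdSimplexBody n) := by
      rw [stdSimplexBody_eq]; exact solidSimplex_compact n 1
    have hSV : 0 < (volume (stdSimplexBody n)).toReal := by
      rw [(covMatrix_stdSimplexBody n).2]; positivity
    have hcrit := FewSlabs.crit_of_few (x := 8 / 5 * n) (by positivity) (show 2 ≤ n by omega)
      (Or.inr (Or.inr ⟨by omega, by linarith⟩))
    rw [show (8 : ℝ) / 5 * n / (12 * n) = 2 / 15 by field_simp; norm_num] at hcrit
    rw [isoConst_affine B hS hSV, isoConst, isoConst]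
    refine Real.rpow_lt_rpow h0 ((hle.trans hcrit).trans_eq ?_) (by positivity)
    rw [simplex_base]
    simp [mul_pow]
    field_simp
    ring

end Vale.Agent.P254.LpSub
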